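import Crest.Agent.R006.Cert_112
import Crest.Agent.R006.Shape_378

/-! certificate data for the shape {'e1': 6, 'e2': 2, 'h1': 2, 'h2': 1, 'a1': 1, 'iw': 6, 'q': 10, 'g': 10} (helper112, generated) -/

set_option autoImplicit false

namespace Crest.Agent.R006.Cert

open D

def datN : Data where
  K := 100
  D := 1000
  Z :=
    [Piece.re (-50) (0) 111,
     Piece.re (-135) (-50) 155,
     Piece.re (-250) (-135) 184,
     Piece.re (-350) (-250) 141,
     Piece.re (-430) (-350) 104,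
     Piece.re (-510) (-430) 96,
     Piece.re (-560) (-510) 40,
     Piece.re (-600) (-560) 21,
     Piece.re (0) (100) 208,
     Piece.re (100) (200) 100,
     Piece.up (0) (30) 10,
     Piece.up (30) (80) 31,
     Piece.up (80) (175) 81,
     Piece.up (175) (260) 70,
     Piece.up (260) (360) 74,
     Piece.up (360) (460) 63,
     Piece.up (460) (565) 56,
     Piece.up (565) (670) 44,
     Piece.up (670) (755) 26,
     Piece.up (755) (835) 15,
     Piece.dn (0) (30) 10,
     Piece.dn (30) (80) 31,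
     Piece.dn (80) (175) 81,
     Piece.dn (175) (260) 70,
     Piece.dn (260) (360) 74,
     Piece.dn (360) (460) 63,
     Piece.dn (460) (565) 56,
     Piece.dn (565) (670) 44,
     Piece.dn (670) (755) 26,
     Piece.dn (755) (835) 15]
  Y :=
    [Piece.re (-50) (0) 33,
     Piece.re (-135) (-50) 98,
     Piece.re (-250) (-135) 163,
     Piece.re (-350) (-250) 158,
     Piece.re (-430) (-350) 135,
     Piece.re (-510) (-430) 146,
     Piece.re (-560) (-510) 86,
     Piece.re (-600) (-560) 71,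
     Piece.up (0) (30) 24,
     Piece.up (30) (80) 26,
     Piece.up (80) (175) 5,
     Piece.dn (0) (30) 24,
     Piece.dn (30) (80) 26,
     Piece.dn (80) (175) 5]
  W :=
    [Piece.re (-50) (0) 148,
     Piece.re (-135) (-50) 254,
     Piece.re (-250) (-135) 348,
     Piece.re (-350) (-250) 300,
     Piece.re (-430) (-350) 239,
     Piece.re (-510) (-430) 241,
     Piece.re (-560) (-510) 127,
     Piece.re (-600) (-560) 92,
     Piece.re (0) (100) 200,
     Piece.re (100) (200) 101,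
     Piece.up (0) (30) 35,
     Piece.up (30) (80) 57,
     Piece.up (80) (175) 87,
     Piece.up (175) (260) 69,
     Piece.up (260) (360) 74,
     Piece.up (360) (460) 63,
     Piece.up (460) (565) 56,
     Piece.up (565) (670) 44,
     Piece.up (670) (755) 26,
     Piece.up (755) (835) 14,
     Piece.dn (0) (30) 35,
     Piece.dn (30) (80) 57,
     Piece.dn (80) (175) 87,
     Piece.dn (175) (260) 69,
     Piece.dn (260) (360) 74,
     Piece.dn (360) (460) 63,
     Piece.dn (460) (565) 56,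
     Piece.dn (565) (670) 44,
     Piece.dn (670) (755) 26,
     Piece.dn (755) (835) 14]
  lR := 5071757
  lQ := -4898784
  cells :=
    [⟨-600, -590, 1, 0⟩,
     ⟨-590, -580, 1, 0⟩,
     ⟨-580, -570, 60338, 104⟩,
     ⟨-570, -560, -7837, -16⟩,
     ⟨-560, -548, -3130, -6⟩,
     ⟨-548, -535, 138807, 253⟩,
     ⟨-535, -523, 143709, 262⟩,
     ⟨-523, -510, -35545, -82⟩,
     ⟨-510, -499, -65508, -134⟩,
     ⟨-499, -488, 441972, 883⟩,
     ⟨-488, -476, 705495, 1423⟩,
     ⟨-476, -465, 913507, 1860⟩,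
     ⟨-465, -453, 1098107, 2257⟩,
     ⟨-453, -442, 1277944, 2654⟩,
     ⟨-442, -430, 1506016, 3170⟩,
     ⟨-430, -419, 1616161, 3425⟩,
     ⟨-419, -408, 1652193, 3511⟩,
     ⟨-408, -396, 1730121, 3702⟩,
     ⟨-396, -385, 1818429, 3925⟩,
     ⟨-385, -373, 1913529, 4172⟩,
     ⟨-373, -362, 2015734, 4446⟩,
     ⟨-362, -350, 2147502, 4810⟩,
     ⟨-350, -338, 2233047, 5054⟩,
     ⟨-338, -325, 2285087, 5208⟩,
     ⟨-325, -313, 2364062, 5451⟩,
     ⟨-313, -300, 2451701, 5731⟩,
     ⟨-300, -288, 2545595, 6044⟩,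
     ⟨-288, -275, 2677782, 6503⟩,
     ⟨-275, -263, 2751208, 6770⟩,
     ⟨-263, -250, 2887180, 7287⟩,
     ⟨-250, -238, 3016833, 7805⟩,
     ⟨-238, -225, 3101799, 8162⟩,
     ⟨-225, -213, 3248720, 8815⟩,
     ⟨-213, -200, 3576953, 10356⟩,
     ⟨-200, -190, 3618137, 10539⟩,
     ⟨-190, -179, 3455790, 9693⟩,
     ⟨-179, -168, 3430518, 9550⟩,
     ⟨-168, -157, 3401659, 9379⟩,
     ⟨-157, -146, 3383738, 9265⟩,
     ⟨-146, -135, 3360108, 9102⟩,
     ⟨-135, -123, 3433112, 9633⟩,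
     ⟨-123, -111, 3403961, 9400⟩,
     ⟨-111, -99, 3405451, 9414⟩,
     ⟨-99, -87, 3444550, 9809⟩,
     ⟨-87, -75, 3478045, 10194⟩,
     ⟨-75, -63, 3491917, 10379⟩,
     ⟨-63, -50, 3495070, 10427⟩,
     ⟨-50, -38, 3537176, 11269⟩,
     ⟨-38, -25, 3542212, 11421⟩,
     ⟨-25, -13, 3580831, 12966⟩,
     ⟨-13, 0, 3605839, 14890⟩,
     ⟨0, 12, 3611581, 15104⟩,
     ⟨12, 25, 3619924, 14281⟩,
     ⟨25, 37, 3621404, 14207⟩,
     ⟨37, 50, 3614631, 14390⟩,
     ⟨50, 62, 3595481, 14773⟩,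
     ⟨62, 75, 3556792, 15397⟩,
     ⟨75, 87, 3479242, 16431⟩,
     ⟨87, 100, 3233812, 19252⟩,
     ⟨100, 112, 3280642, 18902⟩,
     ⟨112, 125, 3538293, 16576⟩,
     ⟨125, 137, 3660293, 15591⟩,
     ⟨137, 150, 3737393, 15026⟩,
     ⟨150, 162, 3786510, 14696⟩,
     ⟨162, 175, 3806846, 14569⟩,
     ⟨175, 187, 3783564, 14702⟩,
     ⟨187, 200, 3589274, 15741⟩]

theorem wf_N : wf D.SN datN = true := by decide +kernel

theorem wf2_N : wf2 D.SN datN = true := by decide +kernel

end Crest.Agent.R006.Cert
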