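import Crest.Agent.R006.Cert_112
import Crest.Agent.R006.Shape_378

/-!
# Row 6, block P3: small certificate data for `D.SN` (helper746)

The pieces and cells of helper295's `datN295`, both levels raised by `5` units `v`
(so that the kernel checks are cheap); `α = αV / K²` about `-749.3`.
-/

set_option autoImplicit false

namespace Crest.Agent.R006.Cert

open D

def datN746 : Data where
  K := 100
  D := 1000
  Z :=
    [Piece.re (-600) (-501) 74,
     Piece.re (-501) (-274) 288,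
     Piece.re (-274) (-62) 345,
     Piece.re (-62) (91) 344,
     Piece.re (91) (200) 111,
     Piece.up (0) (57) 21,
     Piece.dn (0) (57) 21,
     Piece.up (57) (274) 183,
     Piece.dn (57) (274) 183,
     Piece.up (274) (499) 149,
     Piece.dn (274) (499) 149,
     Piece.up (499) (797) 116,
     Piece.dn (499) (797) 116]
  Y :=
    [Piece.re (-600) (-384) 389,
     Piece.re (-384) (-139) 371,
     Piece.re (-139) (0) 134,
     Piece.up (0) (35) 26,
     Piece.dn (0) (35) 26,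
     Piece.up (35) (94) 27,
     Piece.dn (35) (94) 27]
  W :=
    [Piece.re (-600) (-526) 171,
     Piece.re (-526) (0) 1576,
     Piece.re (0) (99) 199,
     Piece.re (99) (200) 102,
     Piece.up (0) (67) 81,
     Piece.dn (0) (67) 81,
     Piece.up (67) (183) 105,
     Piece.dn (67) (183) 105,
     Piece.up (183) (374) 149,
     Piece.dn (183) (374) 149,
     Piece.up (374) (624) 141,
     Piece.dn (374) (624) 141,
     Piece.up (624) (811) 50,
     Piece.dn (624) (811) 50]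
  lR := 5079198
  lQ := -4897407
  cells :=
    [⟨-600, -575, 21625, 36⟩,
     ⟨-575, -550, 118827, 205⟩,
     ⟨-550, -538, 209710, 371⟩,
     ⟨-538, -525, -96166, -201⟩,
     ⟨-525, -513, -148236, -289⟩,
     ⟨-513, -500, 37217, 72⟩,
     ⟨-500, -488, 525520, 1051⟩,
     ⟨-488, -475, 807588, 1629⟩,
     ⟨-475, -463, 989519, 2012⟩,
     ⟨-463, -450, 1154816, 2369⟩,
     ⟨-450, -438, 1310517, 2715⟩,
     ⟨-438, -425, 1519883, 3193⟩,
     ⟨-425, -413, 1697108, 3610⟩,
     ⟨-413, -400, 1815636, 3897⟩,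
     ⟨-400, -388, 1924032, 4168⟩,
     ⟨-388, -375, 2132000, 4704⟩,
     ⟨-375, -350, 2156000, 4768⟩,
     ⟨-350, -338, 2228442, 4975⟩,
     ⟨-338, -325, 2342346, 5312⟩,
     ⟨-325, -313, 2429125, 5579⟩,
     ⟨-313, -300, 2488283, 5768⟩,
     ⟨-300, -275, 2533283, 5918⟩,
     ⟨-275, -263, 2716910, 6588⟩,
     ⟨-263, -250, 2818165, 6973⟩,
     ⟨-250, -238, 2929661, 7419⟩,
     ⟨-238, -225, 3059846, 7966⟩,
     ⟨-225, -213, 3246367, 8795⟩,
     ⟨-213, -207, 3475979, 9873⟩,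
     ⟨-207, -200, 3781718, 11350⟩,
     ⟨-200, -188, 3661221, 10720⟩,
     ⟨-188, -175, 3491908, 9826⟩,
     ⟨-175, -150, 3432234, 9484⟩,
     ⟨-150, -138, 3424010, 9432⟩,
     ⟨-138, -125, 3489836, 9909⟩,
     ⟨-125, -100, 3422249, 9365⟩,
     ⟨-100, -75, 3444047, 9590⟩,
     ⟨-75, -63, 3426095, 9342⟩,
     ⟨-63, -57, 3403533, 9016⟩,
     ⟨-57, -50, 3448224, 9800⟩,
     ⟨-50, -38, 3491474, 10665⟩,
     ⟨-38, -25, 3530802, 11700⟩,
     ⟨-25, -13, 3555878, 12703⟩,
     ⟨-13, -7, 3568502, 13674⟩,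
     ⟨-7, 0, 3579478, 15242⟩,
     ⟨0, 12, 3584581, 14792⟩,
     ⟨12, 25, 3590705, 14174⟩,
     ⟨25, 37, 3589069, 14235⟩,
     ⟨37, 50, 3577487, 14548⟩,
     ⟨50, 62, 3550538, 15087⟩,
     ⟨62, 75, 3497094, 15949⟩,
     ⟨75, 87, 3377243, 17547⟩,
     ⟨87, 100, 3106704, 20667⟩,
     ⟨100, 112, 3378086, 18008⟩,
     ⟨112, 125, 3567371, 16305⟩,
     ⟨125, 150, 3710608, 15173⟩,
     ⟨150, 175, 3797783, 14580⟩,
     ⟨175, 187, 3774621, 14711⟩,
     ⟨187, 200, 3574338, 15782⟩]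

theorem wf_N746 : wf SN datN746 = true := by decide +kernel

theorem wf2_N746 : wf2 SN datN746 = true := by decide +kernel

end Crest.Agent.R006.Cert
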