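import Crest.Agent.R006.Cert_112

/-! certificate data for the shape {'e1': 7, 'e2': 2, 'e3': 1, 'h1': 2, 'h2': 1, 'a1': 1, 'iw': 6, 'q': 11, 'g': 11} (helper112, generated) -/

set_option autoImplicit false

namespace Crest.Agent.R006.Cert

open D

def shP : Shape :=
  { B := 24, e1 := 7, e2 := 2, e3 := 1, h1 := 2, h2 := 1, h3 := 0, w := 6, a1 := 1, a2 := 0,
    i1 := 6, r1 := 0, q := 11, g := 11 }

def datP : Data where
  K := 100
  D := 1000
  Z :=
    [Piece.re (-100) (0) 191,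
     Piece.re (-200) (-100) 162,
     Piece.re (-300) (-200) 145,
     Piece.re (-400) (-300) 133,
     Piece.re (-500) (-400) 122,
     Piece.re (-600) (-500) 73,
     Piece.re (0) (100) 216,
     Piece.re (100) (200) 100,
     Piece.up (0) (100) 72,
     Piece.up (100) (200) 83,
     Piece.up (200) (300) 81,
     Piece.up (300) (400) 70,
     Piece.up (400) (500) 59,
     Piece.up (500) (600) 48,
     Piece.up (600) (750) 53,
     Piece.up (750) (930) 13,
     Piece.dn (0) (100) 72,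
     Piece.dn (100) (200) 83,
     Piece.dn (200) (300) 81,
     Piece.dn (300) (400) 70,
     Piece.dn (400) (500) 59,
     Piece.dn (500) (600) 48,
     Piece.dn (600) (750) 53,
     Piece.dn (750) (930) 13]
  Y :=
    [Piece.re (-100) (0) 102,
     Piece.re (-200) (-100) 138,
     Piece.re (-300) (-200) 154,
     Piece.re (-400) (-300) 169,
     Piece.re (-500) (-400) 184,
     Piece.re (-600) (-500) 178,
     Piece.re (-700) (-600) 97,
     Piece.up (0) (100) 39,
     Piece.dn (0) (100) 39]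
  W :=
    [Piece.re (-100) (0) 304,
     Piece.re (-200) (-100) 299,
     Piece.re (-300) (-200) 299,
     Piece.re (-400) (-300) 302,
     Piece.re (-500) (-400) 305,
     Piece.re (-600) (-500) 254,
     Piece.re (0) (100) 196,
     Piece.re (100) (200) 102,
     Piece.re (-700) (-600) 67,
     Piece.up (0) (100) 117,
     Piece.up (100) (200) 98,
     Piece.up (200) (300) 78,
     Piece.up (300) (400) 70,
     Piece.up (400) (500) 59,
     Piece.up (500) (600) 48,
     Piece.up (600) (750) 53,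
     Piece.up (750) (930) 13,
     Piece.dn (0) (100) 117,
     Piece.dn (100) (200) 98,
     Piece.dn (200) (300) 78,
     Piece.dn (300) (400) 70,
     Piece.dn (400) (500) 59,
     Piece.dn (500) (600) 48,
     Piece.dn (600) (750) 53,
     Piece.dn (750) (930) 13]
  lR := 4372108
  lQ := -5054461
  cells :=
    [⟨-700, -688, -3882896, -6254⟩,
     ⟨-688, -675, -3287086, -5388⟩,
     ⟨-675, -663, -3076486, -5076⟩,
     ⟨-663, -650, -2945214, -4878⟩,
     ⟨-650, -638, -2850319, -4732⟩,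
     ⟨-638, -625, -2779496, -4621⟩,
     ⟨-625, -613, -2732619, -4546⟩,
     ⟨-613, -600, -2495999, -4160⟩,
     ⟨-600, -588, 1, 0⟩,
     ⟨-588, -575, 387499, 659⟩,
     ⟨-575, -563, 496749, 849⟩,
     ⟨-563, -550, 560364, 962⟩,
     ⟨-550, -538, 601615, 1037⟩,
     ⟨-538, -525, 667254, 1159⟩,
     ⟨-525, -513, 670939, 1165⟩,
     ⟨-513, -500, 226770, 297⟩,
     ⟨-500, -488, 370692, 592⟩,
     ⟨-488, -475, 871864, 1619⟩,
     ⟨-475, -463, 1124566, 2151⟩,
     ⟨-463, -450, 1325048, 2584⟩,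
     ⟨-450, -438, 1503698, 2981⟩,
     ⟨-438, -425, 1673200, 3368⟩,
     ⟨-425, -413, 1869121, 3829⟩,
     ⟨-413, -400, 2052084, 4272⟩,
     ⟨-400, -388, 2179907, 4590⟩,
     ⟨-388, -375, 2219873, 4693⟩,
     ⟨-375, -363, 2300873, 4909⟩,
     ⟨-363, -350, 2394887, 5168⟩,
     ⟨-350, -338, 2499892, 5468⟩,
     ⟨-338, -325, 2652672, 5920⟩,
     ⟨-325, -313, 2738801, 6185⟩,
     ⟨-313, -300, 2846786, 6530⟩,
     ⟨-300, -288, 2986533, 6994⟩,
     ⟨-288, -275, 3027717, 7137⟩,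
     ⟨-275, -263, 3107463, 7427⟩,
     ⟨-263, -250, 3205300, 7799⟩,
     ⟨-250, -238, 3346304, 8363⟩,
     ⟨-238, -225, 3496482, 8994⟩,
     ⟨-225, -213, 3650155, 9677⟩,
     ⟨-213, -200, 3964538, 11153⟩,
     ⟨-200, -188, 4036058, 11479⟩,
     ⟨-188, -175, 3831731, 10400⟩,
     ⟨-175, -163, 3784623, 10133⟩,
     ⟨-163, -150, 3805015, 10259⟩,
     ⟨-150, -138, 3849865, 10558⟩,
     ⟨-138, -125, 3884644, 10810⟩,
     ⟨-125, -113, 3934769, 11211⟩,
     ⟨-113, -100, 4062116, 12338⟩,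
     ⟨-100, -88, 4110204, 12744⟩,
     ⟨-88, -75, 3979719, 11282⟩,
     ⟨-75, -63, 3934222, 10685⟩,
     ⟨-63, -50, 3970013, 11257⟩,
     ⟨-50, -38, 3969925, 11256⟩,
     ⟨-38, -25, 3971412, 11295⟩,
     ⟨-25, -13, 3972837, 11352⟩,
     ⟨-13, 0, 3973044, 11363⟩,
     ⟨0, 12, 3972297, 11534⟩,
     ⟨12, 25, 3965924, 12065⟩,
     ⟨25, 37, 3954819, 12509⟩,
     ⟨37, 50, 3936432, 13006⟩,
     ⟨50, 62, 3906436, 13606⟩,
     ⟨62, 75, 3857584, 14394⟩,
     ⟨75, 87, 3769989, 15562⟩,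
     ⟨87, 100, 3512645, 18520⟩,
     ⟨100, 112, 3552351, 18242⟩,
     ⟨112, 125, 3806390, 15948⟩,
     ⟨125, 137, 3923155, 15005⟩,
     ⟨137, 150, 3995051, 14478⟩,
     ⟨150, 162, 4038645, 14185⟩,
     ⟨162, 175, 4052826, 14096⟩,
     ⟨175, 187, 4024301, 14259⟩,
     ⟨187, 200, 3822900, 15336⟩]

theorem wf_P : wf shP datP = true := by decide +kernel

end Crest.Agent.R006.Cert
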