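import Crest.Agent.R006.KindsS_305

/-!
# Row 6: the table of the row kinds (helper595)

Superseded by `Crest.Agent.R006.KindsS_305` (final format of the kinds table, checked line by line
against the numerical programs of helper595). This file holds nothing else.
-/
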