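import Crest.Agent.R006.KapKinds_305
import Crest.Agent.R006.Defs

set_option autoImplicit false

/-!
# Row 6, blocks P4/P8: the kinds table of the frozen line types (helper305, table of helper595)

Types `B, e1, e2, h1, h2, a1, i1, w, q, g` of `Defs.Shape` (`e3 = h3 = a2 = r1 = 0`).
-/

namespace Crest.Agent.R006.P8

open Crest.Agent.R006.D

/-- forbidden option -/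
def cNo : Cst := ⟨1000000, 0⟩

/-- the boundaries -/
def bdS (S : Shape) : List (ℤ × ℤ) :=
  [(0, 0), (S.B, 0), (-S.e1, 0), (-S.e2, 0), (0, 1), (S.h1, 1), (S.h2, 1), (S.a1, 0),
    (-S.i1, 1), (-S.w, 1), (S.a1 + S.k, 0), (S.q, 0), (S.g, 0)]

/-- `G`-rows -/
def kG : Kind where
  ia := 0
  ib := 1
  j0 := 0
  ca := 9
  cb := 4
  cj := -1
  pol := ⟨⟨-2, 0⟩, ⟨0, 0⟩, ⟨0, 0⟩, false⟩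
  polS := ⟨⟨0, 2⟩, ⟨0, 0⟩, ⟨0, 0⟩, false⟩
  polC := ⟨⟨1, 3⟩, ⟨1, 1⟩, ⟨1, 1⟩, false⟩
  reg := ⟨⟨1, 0⟩, ⟨0, 0⟩, ⟨2, 0⟩, false⟩
  regS := ⟨⟨1, 0⟩, ⟨0, 0⟩, ⟨2, 0⟩, false⟩
  regB := ⟨⟨1, 0⟩, ⟨0, 0⟩, ⟨2, 0⟩, false⟩
  regBS := ⟨⟨3, 0⟩, ⟨0, 0⟩, ⟨2, 0⟩, true⟩

/-- values at `-m` -/
def kE1 : Kind where
  ia := 2
  ib := 0
  j0 := -1
  ca := 0
  cb := 0
  cj := 0
  pol := ⟨⟨-2, 0⟩, ⟨0, 0⟩, cNo, false⟩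
  polS := ⟨⟨-2, 0⟩, ⟨0, 0⟩, cNo, false⟩
  polC := ⟨⟨-2, 0⟩, ⟨0, 0⟩, cNo, false⟩
  reg := ⟨⟨1, 0⟩, ⟨0, 0⟩, cNo, false⟩
  regS := ⟨⟨1, 0⟩, ⟨0, 0⟩, cNo, false⟩
  regB := ⟨⟨1, 0⟩, ⟨0, 0⟩, cNo, false⟩
  regBS := ⟨⟨1, 0⟩, ⟨0, 0⟩, cNo, false⟩

/-- first derivatives at `-m` -/
def kE2 : Kind where
  ia := 3
  ib := 0
  j0 := -1
  ca := 0
  cb := 0
  cj := 0
  pol := ⟨⟨-3, 0⟩, ⟨0, 1⟩, cNo, false⟩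
  polS := ⟨⟨-3, 0⟩, ⟨0, 1⟩, cNo, false⟩
  polC := ⟨⟨-3, 0⟩, ⟨0, 1⟩, cNo, false⟩
  reg := ⟨⟨0, 0⟩, ⟨0, 1⟩, cNo, false⟩
  regS := ⟨⟨0, 0⟩, ⟨0, 1⟩, cNo, false⟩
  regB := ⟨⟨0, 0⟩, ⟨0, 1⟩, cNo, false⟩
  regBS := ⟨⟨0, 0⟩, ⟨0, 1⟩, cNo, false⟩

/-- values at `l + 1/2`, `l ≥ 0` -/
def kH1 : Kind where
  ia := 4
  ib := 5
  j0 := -1
  ca := 0
  cb := 0
  cj := 0
  pol := ⟨⟨-2, 0⟩, ⟨0, 0⟩, cNo, false⟩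
  polS := ⟨⟨-2, 0⟩, ⟨0, 0⟩, cNo, false⟩
  polC := ⟨⟨-2, 0⟩, ⟨0, 0⟩, cNo, false⟩
  reg := ⟨⟨1, 0⟩, ⟨0, 0⟩, cNo, false⟩
  regS := ⟨⟨1, 0⟩, ⟨0, 0⟩, cNo, false⟩
  regB := ⟨⟨1, 0⟩, ⟨0, 0⟩, cNo, false⟩
  regBS := ⟨cNo, ⟨0, 0⟩, cNo, false⟩

/-- first derivatives at `l + 1/2`, `l ≥ 0` -/
def kH2 : Kind where
  ia := 4
  ib := 6
  j0 := -1
  ca := 0
  cb := 0
  cj := 0
  pol := ⟨⟨-3, 0⟩, ⟨0, 1⟩, cNo, false⟩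
  polS := ⟨⟨-3, 0⟩, ⟨0, 1⟩, cNo, false⟩
  polC := ⟨⟨-3, 0⟩, ⟨0, 1⟩, cNo, false⟩
  reg := ⟨⟨0, 0⟩, ⟨0, 1⟩, cNo, false⟩
  regS := ⟨⟨0, 0⟩, ⟨0, 1⟩, cNo, false⟩
  regB := ⟨⟨0, 0⟩, ⟨0, 1⟩, cNo, false⟩
  regBS := ⟨cNo, ⟨0, 1⟩, cNo, false⟩

/-- gauge zeros (row form): the `R`-option only -/
def kZero (ia ib : ℕ) (j0 : ℤ) : Kind where
  ia := ia
  ib := ib
  j0 := j0
  ca := 0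
  cb := 0
  cj := 0
  pol := ⟨⟨0, 0⟩, cNo, cNo, false⟩
  polS := ⟨⟨0, 0⟩, cNo, cNo, false⟩
  polC := ⟨⟨0, 0⟩, cNo, cNo, false⟩
  reg := ⟨⟨0, 0⟩, cNo, cNo, false⟩
  regS := ⟨⟨0, 0⟩, cNo, cNo, false⟩
  regB := ⟨⟨0, 0⟩, cNo, cNo, false⟩
  regBS := ⟨⟨0, 0⟩, cNo, cNo, false⟩

/-- the rows `T + g Q = 0` at `-1/2-m` (in decomposition B1 without `R`-option) -/
def kW : Kind where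
  ia := 9
  ib := 4
  j0 := -1
  ca := 0
  cb := 0
  cj := 0
  pol := ⟨⟨0, 2⟩, ⟨0, 0⟩, ⟨0, 0⟩, false⟩
  polS := ⟨⟨0, 2⟩, ⟨0, 0⟩, ⟨0, 0⟩, false⟩
  polC := ⟨⟨0, 2⟩, ⟨0, 0⟩, ⟨0, 0⟩, false⟩
  reg := ⟨⟨1, 0⟩, ⟨0, 0⟩, ⟨2, 0⟩, false⟩
  regS := ⟨⟨1, 0⟩, ⟨0, 0⟩, ⟨2, 0⟩, false⟩
  regB := ⟨cNo, ⟨0, 0⟩, ⟨2, 0⟩, false⟩
  regBS := ⟨cNo, ⟨0, 0⟩, ⟨2, 0⟩, false⟩

/-- all kinds (the zeros of the gauge last) -/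
def kindsS : List Kind := [kG, kE1, kE2, kH1, kH2, kW, kZero 0 7 0, kZero 8 4 (-1)]

/-- the references: `C(z, 2)` (gauge zeros), binomial denominators of the three blocks -/
def refsS : List (ℤ × List (ℕ × ℕ)) :=
  [(1, [(0, 7), (8, 4)]), (1, [(0, 10)]), (-1, [(0, 7)]), (1, [(0, 11)]), (1, [(0, 12)])]

/-- number of the boundary `(0, 1)` -/
def ipS : ℕ := 4

/-- the class cost of the shape -/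
def kapS : List ℤ → List ℤ → ℤ := kapK kindsS refsS ipS

end Crest.Agent.R006.P8
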