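import Crest.Agent.R006.RayChk_464
import Crest.Agent.R006.CertDataN_112

/-! Row 6, P3: the two ray inequalities of `datN` (helper464, generated; kernel checked) -/

set_option autoImplicit false

namespace Crest.Agent.R006.Cert

open D NumSegx464 Num482 NumDictx464 NumFastx179

def ntR_datN : List NT :=
  [⟨true, 45958416, 0, 0, 1100, 1, 0, 1, 0, 0⟩,
   ⟨false, 137287920, 0, 0, 1200, 1, 0, 1, 0, 0⟩,
   ⟨true, 23173920, 0, 0, 930, 1, 0, 1, 0, 0⟩,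
   ⟨true, 26969208, 0, 0, 700, 1, 0, 1, 0, 0⟩,
   ⟨true, 15288882, 0, 0, 500, 1, 0, 1, 0, 0⟩,
   ⟨true, 9360540, 0, 0, 340, 1, 0, 1, 0, 0⟩,
   ⟨true, 108894282, 0, 0, 180, 1, 0, 1, 0, 0⟩,
   ⟨true, 64275708, 0, 0, 80, 1, 0, 1, 0, 0⟩,
   ⟨true, 227773140, 0, 0, 0, 1, 0, 1, 0, 0⟩,
   ⟨false, 258350904, 0, 0, 1400, 1, 0, 1, 0, 0⟩,
   ⟨false, 126055272, 0, 0, 1600, 1, 0, 1, 0, 0⟩,
   ⟨true, 93605400, 0, 2, 0, 0, 0, 0, 0, 0⟩,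
   ⟨true, 16224936, 0, 2, 120, 0, 0, 0, 0, 0⟩,
   ⟨true, 93605400, 0, 0, 0, 0, 0, 0, 0, 2⟩,
   ⟨true, 16224936, 0, 0, 120, 0, 0, 0, 0, 2⟩,
   ⟨true, 525504, 0, 2, 320, 0, 0, 0, 0, 0⟩,
   ⟨true, 525504, 0, 0, 320, 0, 0, 0, 0, 2⟩,
   ⟨false, 8307600, 0, 2, 700, 0, 0, 0, 0, 0⟩,
   ⟨false, 8307600, 0, 0, 700, 0, 0, 0, 0, 2⟩,
   ⟨false, 9690912, 0, 2, 1040, 0, 0, 0, 0, 0⟩,
   ⟨false, 9690912, 0, 0, 1040, 0, 0, 0, 0, 2⟩,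
   ⟨false, 13728792, 0, 2, 1440, 0, 0, 0, 0, 0⟩,
   ⟨false, 13728792, 0, 0, 1440, 0, 0, 0, 0, 2⟩,
   ⟨false, 12064696, 0, 2, 1840, 0, 0, 0, 0, 0⟩,
   ⟨false, 12064696, 0, 0, 1840, 0, 0, 0, 0, 2⟩,
   ⟨false, 14263680, 0, 2, 2260, 0, 0, 0, 0, 0⟩,
   ⟨false, 14263680, 0, 0, 2260, 0, 0, 0, 0, 2⟩,
   ⟨false, 14123840, 0, 2, 2680, 0, 0, 0, 0, 0⟩,
   ⟨false, 14123840, 0, 0, 2680, 0, 0, 0, 0, 2⟩,
   ⟨false, 15555015, 0, 2, 3020, 0, 0, 0, 0, 0⟩,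
   ⟨false, 15555015, 0, 0, 3020, 0, 0, 0, 0, 2⟩,
   ⟨false, 22621305, 0, 2, 3340, 0, 0, 0, 0, 0⟩,
   ⟨false, 22621305, 0, 0, 3340, 0, 0, 0, 0, 2⟩,
   ⟨true, 124807200, 0, 0, 6000, 1, 0, 1, 0, 0⟩,
   ⟨false, 124807200, 0, 0, 800, 1, 0, 1, 0, 0⟩]

def linR_datN : Lin :=
  ⟨0, 447559108439893227602160000, 0, 366830945541260780798400, 45879126720000, 15226478400, 712685397675071150434809600, 0⟩

theorem preR_datN : rayRPre SN datN 124807200 ntR_datN linR_datN = true := by decide +kernel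

theorem rayR_datN_0 : RayR SN datN (0 / 2) (412 / 2) :=
  rayR_of preR_datN (x := 0) (hs := [13, 7, 7, 3, 11, 13, 13, 13, 15, 16, 18, 21, 21, 4, 15, 16]) (by decide +kernel) (by norm_num) (by norm_num)

theorem rayR_datN_1 : RayR SN datN (412 / 2) (920 / 2) :=
  rayR_of preR_datN (x := 412) (hs := [19, 23, 12, 17, 17, 22, 29, 15, 10, 7, 8, 8, 12, 18, 25, 12]) (by decide +kernel) (by norm_num) (by norm_num)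

theorem rayR_datN_2 : RayR SN datN (920 / 2) (1380 / 2) :=
  rayR_of preR_datN (x := 920) (hs := [8, 6, 7, 9, 14, 23, 29, 9, 10, 9, 10, 14, 23, 30, 9, 20]) (by decide +kernel) (by norm_num) (by norm_num)

theorem rayR_datN_3 : RayR SN datN (1380 / 2) (4000 / 2) :=
  rayR_of preR_datN (x := 1380) (hs := [19, 27, 17, 2, 23, 22, 28, 7, 32, 54, 130, 303, 646]) (by decide +kernel) (by norm_num) (by norm_num)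

theorem rayR_datN : RayR SN datN 0 2000 := by
  have h := (((rayR_datN_0.trans rayR_datN_1).trans rayR_datN_2).trans rayR_datN_3)
  norm_num at h ⊢
  exact h

def ntQ_datN : List NT :=
  [⟨false, 32523288, 0, 0, 1100, 1, 0, 1, 0, 0⟩,
   ⟨false, 101093832, 0, 0, 1200, 1, 0, 1, 0, 0⟩,
   ⟨false, 18864720, 0, 0, 930, 1, 0, 1, 0, 0⟩,
   ⟨false, 8519448, 0, 0, 700, 1, 0, 1, 0, 0⟩,
   ⟨false, 5928342, 0, 0, 500, 1, 0, 1, 0, 0⟩,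
   ⟨false, 10140585, 0, 0, 340, 1, 0, 1, 0, 0⟩,
   ⟨true, 36038079, 0, 0, 180, 1, 0, 1, 0, 0⟩,
   ⟨true, 11544666, 0, 0, 80, 1, 0, 1, 0, 0⟩,
   ⟨true, 129487470, 0, 0, 0, 1, 0, 1, 0, 0⟩,
   ⟨true, 624036, 0, 0, 1400, 1, 0, 1, 0, 0⟩,
   ⟨false, 624036, 0, 0, 1600, 1, 0, 1, 0, 0⟩,
   ⟨true, 61363540, 0, 2, 0, 0, 0, 0, 0, 0⟩,
   ⟨false, 9568552, 0, 2, 120, 0, 0, 0, 0, 0⟩,
   ⟨true, 61363540, 0, 0, 0, 0, 0, 0, 0, 2⟩,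
   ⟨false, 9568552, 0, 0, 120, 0, 0, 0, 0, 2⟩,
   ⟨false, 21578508, 0, 2, 320, 0, 0, 0, 0, 0⟩,
   ⟨false, 21578508, 0, 0, 320, 0, 0, 0, 0, 2⟩,
   ⟨false, 4887960, 0, 2, 700, 0, 0, 0, 0, 0⟩,
   ⟨false, 4887960, 0, 0, 700, 0, 0, 0, 0, 2⟩,
   ⟨false, 2239188, 0, 2, 1040, 0, 0, 0, 0, 0⟩,
   ⟨false, 2239188, 0, 0, 1040, 0, 0, 0, 0, 2⟩,
   ⟨false, 3432198, 0, 2, 1440, 0, 0, 0, 0, 0⟩,
   ⟨false, 3432198, 0, 0, 1440, 0, 0, 0, 0, 2⟩,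
   ⟨false, 3016174, 0, 2, 1840, 0, 0, 0, 0, 0⟩,
   ⟨false, 3016174, 0, 0, 1840, 0, 0, 0, 0, 2⟩,
   ⟨false, 3565920, 0, 2, 2260, 0, 0, 0, 0, 0⟩,
   ⟨false, 3565920, 0, 0, 2260, 0, 0, 0, 0, 2⟩,
   ⟨false, 3530960, 0, 2, 2680, 0, 0, 0, 0, 0⟩,
   ⟨false, 3530960, 0, 0, 2680, 0, 0, 0, 0, 2⟩,
   ⟨false, 4083765, 0, 2, 3020, 0, 0, 0, 0, 0⟩,
   ⟨false, 4083765, 0, 0, 3020, 0, 0, 0, 0, 2⟩,
   ⟨false, 5460315, 0, 2, 3340, 0, 0, 0, 0, 0⟩,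
   ⟨false, 5460315, 0, 0, 3340, 0, 0, 0, 0, 2⟩,
   ⟨true, 62403600, 0, 0, 6000, 1, 0, 1, 0, 0⟩,
   ⟨false, 62403600, 0, 0, 800, 1, 0, 1, 0, 0⟩]

def linQ_datN : Lin :=
  ⟨0, 28246385516337113385120000, 0, 220728951491241228806400, 2895527040000, 249614400, 0, 344189579978326618745899200⟩

theorem preQ_datN : rayQPre SN datN 62403600 ntQ_datN linQ_datN = true := by decide +kernel

theorem rayQ_datN_0 : RayQ SN datN (0 / 2) (160 / 2) :=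
  rayQ_of preQ_datN (x := 0) (hs := [1, 1, 1, 2, 3, 4, 5, 7, 6, 4, 4, 5, 8, 12, 14, 3]) (by decide +kernel) (by norm_num) (by norm_num)

theorem rayQ_datN_1 : RayQ SN datN (160 / 2) (1670 / 2) :=
  rayQ_of preQ_datN (x := 160) (hs := [4, 3, 3, 5, 11, 25, 42, 2, 83, 2, 100, 100, 105, 105, 85, 80]) (by decide +kernel) (by norm_num) (by norm_num)

theorem rayQ_datN_2 : RayQ SN datN (1670 / 2) (2800 / 2) :=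
  rayQ_of preQ_datN (x := 1670) (hs := [565]) (by decide +kernel) (by norm_num) (by norm_num)

theorem rayQ_datN : RayQ SN datN 0 1400 := by
  have h := ((rayQ_datN_0.trans rayQ_datN_1).trans rayQ_datN_2)
  norm_num at h ⊢
  exact h

end Crest.Agent.R006.Cert
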