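import Crest.Agent.R006.RayChk_464
import Crest.Agent.R006.CertDataN_112

/-! Row 6, P3: the inequalities of `datN` on the real axis (helper464, generated; kernel checked) -/

set_option autoImplicit false

namespace Crest.Agent.R006.Cert

open D NumSegx464 Num482 NumDictx464 NumFastx179

def rtR_datN : List NT :=
  [⟨true, 45958416, 0, 1, 1100, 0, 0, 0, 0, 0⟩,
   ⟨false, 137287920, 0, 1, 1200, 0, 0, 0, 0, 0⟩,
   ⟨true, 23173920, 0, 1, 930, 0, 0, 0, 0, 0⟩,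
   ⟨true, 26969208, 0, 1, 700, 0, 0, 0, 0, 0⟩,
   ⟨true, 15288882, 0, 1, 500, 0, 0, 0, 0, 0⟩,
   ⟨true, 9360540, 0, 1, 340, 0, 0, 0, 0, 0⟩,
   ⟨true, 108894282, 0, 1, 180, 0, 0, 0, 0, 0⟩,
   ⟨true, 64275708, 0, 1, 80, 0, 0, 0, 0, 0⟩,
   ⟨true, 227773140, 0, 1, 0, 0, 0, 0, 0, 0⟩,
   ⟨false, 258350904, 0, 1, 1400, 0, 0, 0, 0, 0⟩,
   ⟨false, 126055272, 0, 1, 1600, 0, 0, 0, 0, 0⟩,
   ⟨true, 187210800, 0, 0, 0, 1, 0, 0, 0, 1⟩,
   ⟨true, 32449872, 0, 0, 120, 1, 0, 0, 0, 1⟩,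
   ⟨true, 1051008, 0, 0, 320, 1, 0, 0, 0, 1⟩,
   ⟨false, 16615200, 0, 0, 700, 1, 0, 0, 0, 1⟩,
   ⟨false, 19381824, 0, 0, 1040, 1, 0, 0, 0, 1⟩,
   ⟨false, 27457584, 0, 0, 1440, 1, 0, 0, 0, 1⟩,
   ⟨false, 24129392, 0, 0, 1840, 1, 0, 0, 0, 1⟩,
   ⟨false, 28527360, 0, 0, 2260, 1, 0, 0, 0, 1⟩,
   ⟨false, 28247680, 0, 0, 2680, 1, 0, 0, 0, 1⟩,
   ⟨false, 31110030, 0, 0, 3020, 1, 0, 0, 0, 1⟩,
   ⟨false, 45242610, 0, 0, 3340, 1, 0, 0, 0, 1⟩,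
   ⟨true, 124807200, 0, 1, 6000, 0, 0, 0, 0, 0⟩,
   ⟨false, 124807200, 0, 1, 800, 0, 0, 0, 0, 0⟩]

theorem prerR_datN : preL (LRl SN datN) (-600, 0) (1, 0) 124807200 rtR_datN = true := by decide +kernel

def rtQ_datN : List NT :=
  [⟨false, 32523288, 0, 1, 1100, 0, 0, 0, 0, 0⟩,
   ⟨false, 101093832, 0, 1, 1200, 0, 0, 0, 0, 0⟩,
   ⟨false, 18864720, 0, 1, 930, 0, 0, 0, 0, 0⟩,
   ⟨false, 8519448, 0, 1, 700, 0, 0, 0, 0, 0⟩,
   ⟨false, 5928342, 0, 1, 500, 0, 0, 0, 0, 0⟩,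
   ⟨false, 10140585, 0, 1, 340, 0, 0, 0, 0, 0⟩,
   ⟨true, 36038079, 0, 1, 180, 0, 0, 0, 0, 0⟩,
   ⟨true, 11544666, 0, 1, 80, 0, 0, 0, 0, 0⟩,
   ⟨true, 129487470, 0, 1, 0, 0, 0, 0, 0, 0⟩,
   ⟨true, 624036, 0, 1, 1400, 0, 0, 0, 0, 0⟩,
   ⟨false, 624036, 0, 1, 1600, 0, 0, 0, 0, 0⟩,
   ⟨true, 122727080, 0, 0, 0, 1, 0, 0, 0, 1⟩,
   ⟨false, 19137104, 0, 0, 120, 1, 0, 0, 0, 1⟩,
   ⟨false, 43157016, 0, 0, 320, 1, 0, 0, 0, 1⟩,
   ⟨false, 9775920, 0, 0, 700, 1, 0, 0, 0, 1⟩,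
   ⟨false, 4478376, 0, 0, 1040, 1, 0, 0, 0, 1⟩,
   ⟨false, 6864396, 0, 0, 1440, 1, 0, 0, 0, 1⟩,
   ⟨false, 6032348, 0, 0, 1840, 1, 0, 0, 0, 1⟩,
   ⟨false, 7131840, 0, 0, 2260, 1, 0, 0, 0, 1⟩,
   ⟨false, 7061920, 0, 0, 2680, 1, 0, 0, 0, 1⟩,
   ⟨false, 8167530, 0, 0, 3020, 1, 0, 0, 0, 1⟩,
   ⟨false, 10920630, 0, 0, 3340, 1, 0, 0, 0, 1⟩,
   ⟨true, 62403600, 0, 1, 6000, 0, 0, 0, 0, 0⟩,
   ⟨false, 62403600, 0, 1, 800, 0, 0, 0, 0, 0⟩]

theorem prerQ_datN : preL (LQl SN datN) (-600, 0) (1, 0) 62403600 rtQ_datN = true := by decide +kernel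

theorem real_datN_0 : CellsOK SN datN ((datN.cells.drop 0).take 10) :=
  real_of (X0 := 600) (by decide) prerR_datN prerQ_datN _
    [([10], [1, 1, 2, 3, 3]),
     ([10], [4, 3, 3]),
     ([9, 1], [3, 3, 3, 1]),
     ([7, 3], [3, 3, 3, 1]),
     ([12], [4, 5, 3]),
     ([13], [5, 5, 3]),
     ([10, 2], [5, 4, 3]),
     ([8, 5], [4, 4, 3, 2]),
     ([11], [7, 4]),
     ([11], [7, 4])]
    (by decide +kernel)

theorem real_datN_1 : CellsOK SN datN ((datN.cells.drop 10).take 10) :=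
  real_of (X0 := 600) (by decide) prerR_datN prerQ_datN _
    [([12], [7, 5]),
     ([11], [8, 3]),
     ([12], [8, 4]),
     ([11], [8, 3]),
     ([10, 2], [7, 5]),
     ([11], [7, 4]),
     ([11], [7, 4]),
     ([12], [8, 4]),
     ([11], [9, 2]),
     ([12], [9, 3])]
    (by decide +kernel)

theorem real_datN_2 : CellsOK SN datN ((datN.cells.drop 20).take 10) :=
  real_of (X0 := 600) (by decide) prerR_datN prerQ_datN _
    [([11], [10, 1]),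
     ([10, 2], [8, 4]),
     ([12], [8, 4]),
     ([13], [9, 4]),
     ([12], [10, 2]),
     ([13], [10, 3]),
     ([11, 1], [11, 1]),
     ([9, 4], [11, 2]),
     ([9, 3], [12]),
     ([6, 7], [11, 2])]
    (by decide +kernel)

theorem real_datN_3 : CellsOK SN datN ((datN.cells.drop 30).take 10) :=
  real_of (X0 := 600) (by decide) prerR_datN prerQ_datN _
    [([12], [7, 5]),
     ([13], [8, 5]),
     ([12], [8, 4]),
     ([11, 2], [6, 7]),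
     ([10], [3, 2, 3, 2]),
     ([5, 5, 1], [4, 5, 2]),
     ([5, 6], [11]),
     ([6, 5], [11]),
     ([6, 5], [11]),
     ([5, 4, 2], [9, 2])]
    (by decide +kernel)

theorem real_datN_4 : CellsOK SN datN ((datN.cells.drop 40).take 10) :=
  real_of (X0 := 600) (by decide) prerR_datN prerQ_datN _
    [([12], [5, 5, 2]),
     ([12], [6, 6]),
     ([12], [7, 5]),
     ([10, 2], [8, 4]),
     ([8, 4], [12]),
     ([7, 5], [12]),
     ([5, 4, 4], [11, 2]),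
     ([12], [4, 4, 4]),
     ([12, 1], [5, 8]),
     ([9, 3], [12])]
    (by decide +kernel)

theorem real_datN_5 : CellsOK SN datN ((datN.cells.drop 50).take 10) :=
  real_of (X0 := 600) (by decide) prerR_datN prerQ_datN _
    [([6, 7], [11, 2]),
     ([3, 2, 3, 4], [12]),
     ([4, 5, 4], [13]),
     ([6, 6], [12]),
     ([7, 6], [13]),
     ([7, 5], [12]),
     ([8, 5], [13]),
     ([7, 5], [12]),
     ([5, 8], [13]),
     ([3, 1, 2, 2, 4], [12])]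
    (by decide +kernel)

theorem real_datN_6 : CellsOK SN datN ((datN.cells.drop 60).take 10) :=
  real_of (X0 := 600) (by decide) prerR_datN prerQ_datN _
    [([4, 4, 4, 1], [13]),
     ([4, 5, 3], [12]),
     ([5, 5, 3], [13]),
     ([6, 6], [12]),
     ([6, 6, 1], [13]),
     ([6, 6], [12]),
     ([5, 6, 2], [13])]
    (by decide +kernel)

theorem real_datN : CellsOK SN datN datN.cells := by
  have h := ((((((real_datN_0.append real_datN_1).append real_datN_2).append real_datN_3).append real_datN_4).append real_datN_5).append real_datN_6)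
  exact h

end Crest.Agent.R006.Cert
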