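import Crest.Agent.R006.P8_FastSpec_799
import Crest.Agent.R006.P4Iface_814
import Crest.Agent.R006.Shape_378

set_option autoImplicit false
set_option maxRecDepth 100000

/-! Row 6, P8: strips of the odd certificate of `SN`, chunk 0 (data of helper595, format of helper305
and helper814) -/

namespace Crest.Agent.R006.OddM0

open Crest.Agent.R006.D Crest.Agent.R006.P8 Crest.Agent.R006.P4If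

/-- the strips -/
def L : List St := [
  ⟨1,2,[35,1,11,20,0,0,18,0,0,19,0,0]⟩,
  ⟨60,119,[35,1,11,20,0,0,18,0,0,19,0,0]⟩,
  ⟨56,111,[35,1,11,20,0,0,18,0,0,19,0,0]⟩,
  ⟨48,95,[35,1,11,18,0,0,20,0,0,19,0,0]⟩,
  ⟨46,91,[35,1,11,18,0,0,20,0,0,19,0,0]⟩,
  ⟨44,87,[35,1,11,18,0,0,20,0,0,19,0,0]⟩,
  ⟨42,83,[35,1,11,18,0,0,20,0,0,19,0,0]⟩,
  ⟨40,79,[35,1,11,18,0,0,20,0,0,19,0,0]⟩,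
  ⟨32,63,[35,1,11,18,0,0,20,0,0,19,0,0]⟩,
  ⟨30,59,[35,1,11,18,0,0,20,0,0]⟩,
  ⟨28,55,[35,1,11,18,0,0,20,0,0]⟩,
  ⟨26,51,[35,1,11,18,0,0,20,0,0]⟩,
  ⟨24,47,[35,1,11,18,0,0,20,0,0]⟩,
  ⟨23,45,[35,1,11,18,0,0,20,0,0]⟩,
  ⟨22,43,[35,1,11,20,0,0,18,0,0]⟩,
  ⟨21,41,[35,1,11,20,0,0,18,0,0]⟩,
  ⟨20,39,[35,1,11,18,0,0,20,0,0,19,0,0]⟩,
  ⟨56,109,[35,1,11,18,0,0,19,0,0,20,0,0]⟩,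
  ⟨18,35,[35,1,11,18,0,0,19,0,0,20,0,0]⟩,
  ⟨16,31,[35,1,11,18,0,0,19,0,0,20,0,0]⟩,
  ⟨46,89,[35,1,11,18,0,0,19,0,0,20,0,0]⟩,
  ⟨15,29,[35,1,11,18,0,0,19,0,0,20,0,0]⟩,
  ⟨44,85,[34,1,11,18,0,0,20,0,0]⟩,
  ⟨14,27,[34,1,11,18,0,0,19,0,0,20,0,0]⟩,
  ⟨40,77,[34,1,11,18,0,0,19,0,0,20,0,0]⟩,
  ⟨13,25,[34,1,11,18,0,0,19,0,0,20,0,0]⟩,
  ⟨12,23,[34,1,11,18,0,0,19,0,0,17,0,0]⟩,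
  ⟨23,44,[34,1,11,18,0,0,19,0,0,17,0,0]⟩,
  ⟨56,107,[34,1,11,18,0,0,19,0,0,17,0,0]⟩,
  ⟨11,21,[34,1,11,18,0,0,19,0,0,17,0,0]⟩,
  ⟨32,61,[34,1,11,19,0,0,18,0,0,17,0,0]⟩,
  ⟨21,40,[34,1,11,19,0,0,18,0,0,17,0,0]⟩,
  ⟨10,19,[34,1,11,19,0,0,18,0,0,17,0,0]⟩,
  ⟨48,91,[34,1,11,19,0,0,18,0,0,17,0,0]⟩,
  ⟨28,53,[34,1,11,19,0,0,18,0,0,17,0,0]⟩,
  ⟨46,87,[34,1,11,19,0,0,18,0,0,17,0,0]⟩,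
  ⟨9,17,[34,1,11,19,0,0,18,0,0,17,0,0]⟩,
  ⟨44,83,[34,1,11,17,0,0,19,0,0,18,0,0]⟩,
  ⟨26,49,[34,1,11,17,0,0,19,0,0,18,0,0]⟩,
  ⟨60,113,[34,1,11,17,0,0,19,0,0,18,0,0]⟩,
  ⟨42,79,[33,1,11,18,0,0,19,0,0,17,0,0]⟩,
  ⟨8,15,[33,1,11,17,0,0,19,0,0,18,0,0]⟩,
  ⟨23,43,[33,1,11,17,0,0,19,0,0,18,0,0]⟩,
  ⟨15,28,[33,1,11,17,0,0,19,0,0,18,0,0]⟩,
  ⟨22,41,[33,1,11,19,0,0,17,0,0,18,0,0]⟩,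
  ⟨7,13,[33,1,11,19,0,0,17,0,0]⟩,
  ⟨48,89,[33,1,11,17,0,0,19,0,0]⟩]

theorem chk : fastTotal 1000000000 (bdS SN) kapT (extT SN) L = some 311959828 := by
  decide +kernel

theorem gc : ∀ s ∈ L.dropLast, 0 < s.u ∧ 0 < s.v ∧ gcOK SN s = true ∧ 3 ≤ s.t.length := by
  decide +kernel

end Crest.Agent.R006.OddM0
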