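import Crest.Agent.R006.P8_FastSpec_799
import Crest.Agent.R006.P4Iface_814
import Crest.Agent.R006.Shape_378

set_option autoImplicit false
set_option maxRecDepth 100000

/-! Row 6, P8: strips of the odd certificate of `SN`, chunk 10 (data of helper595, format of helper305
and helper814) -/

namespace Crest.Agent.R006.OddM10

open Crest.Agent.R006.D Crest.Agent.R006.P8 Crest.Agent.R006.P4If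

/-- the strips -/
def L : List St := [
  ⟨40,23,[10,1,3,6,0,0,4,0,0,5,0,0]⟩,
  ⟨7,4,[10,1,3,6,0,0,4,0,0]⟩,
  ⟨44,25,[9,1,3,6,0,0,5,0,0,4,0,0]⟩,
  ⟨30,17,[9,1,3,6,0,0,5,0,0,4,0,0]⟩,
  ⟨23,13,[9,1,3,6,0,0,5,0,0,4,0,0]⟩,
  ⟨16,9,[9,1,3,6,0,0,5,0,0,4,0,0]⟩,
  ⟨9,5,[9,1,3,6,0,0,5,0,0,4,0,0]⟩,
  ⟨56,31,[9,1,3,6,0,0,4,0,0,5,0,0]⟩,
  ⟨20,11,[9,1,3,4,0,0,6,0,0]⟩,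
  ⟨42,23,[9,1,3,4,0,0,6,0,0]⟩,
  ⟨11,6,[9,1,3,6,0,0,4,0,0]⟩,
  ⟨46,25,[9,1,3,6,0,0,4,0,0]⟩,
  ⟨24,13,[9,1,3,6,0,0,4,0,0]⟩,
  ⟨13,7,[9,1,3,6,0,0,4,0,0]⟩,
  ⟨28,15,[9,1,3,6,0,0,4,0,0]⟩,
  ⟨15,8,[9,1,3,5,0,0,6,0,0,4,0,0]⟩,
  ⟨32,17,[9,1,3,6,0,0,4,0,0,5,0,0]⟩,
  ⟨40,21,[9,1,3,6,0,0,4,0,0,5,0,0]⟩,
  ⟨21,11,[9,1,3,6,0,0,4,0,0,5,0,0]⟩,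
  ⟨44,23,[9,1,3,4,0,0,6,0,0,5,0,0]⟩,
  ⟨23,12,[9,1,3,4,0,0,6,0,0,5,0,0]⟩,
  ⟨48,25,[9,1,3,4,0,0,6,0,0,5,0,0]⟩,
  ⟨56,29,[9,1,3,4,0,0,6,0,0,5,0,0]⟩,
  ⟨60,31,[9,1,3,4,0,0,6,0,0,5,0,0]⟩,
  ⟨2,1,[8,1,2,5,0,0,3,0,0,4,0,0]⟩,
  ⟨60,29,[8,1,2,5,0,0,3,0,0,4,0,0]⟩,
  ⟨56,27,[8,1,2,5,0,0,3,0,0,4,0,0]⟩,
  ⟨48,23,[8,1,2,3,0,0,5,0,0,4,0,0]⟩,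
  ⟨23,11,[8,1,2,3,0,0,5,0,0,4,0,0]⟩,
  ⟨44,21,[8,1,2,3,0,0,5,0,0,4,0,0]⟩,
  ⟨21,10,[8,1,2,3,0,0,5,0,0,4,0,0]⟩,
  ⟨40,19,[8,1,2,3,0,0,5,0,0,4,0,0]⟩,
  ⟨32,15,[8,1,2,3,0,0,5,0,0,4,0,0]⟩,
  ⟨15,7,[8,1,2,3,0,0,5,0,0]⟩,
  ⟨28,13,[8,1,2,3,0,0,5,0,0]⟩,
  ⟨13,6,[8,1,2,3,0,0,5,0,0]⟩,
  ⟨24,11,[8,1,2,3,0,0,5,0,0]⟩,
  ⟨46,21,[8,1,2,3,0,0,5,0,0]⟩,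
  ⟨11,5,[8,1,2,5,0,0,3,0,0]⟩,
  ⟨42,19,[8,1,2,5,0,0,3,0,0]⟩,
  ⟨20,9,[8,1,2,3,0,0,5,0,0,4,0,0]⟩,
  ⟨56,25,[8,1,2,3,0,0,4,0,0,5,0,0]⟩,
  ⟨9,4,[8,1,2,3,0,0,4,0,0,5,0,0]⟩,
  ⟨16,7,[8,1,2,3,0,0,4,0,0,5,0,0]⟩,
  ⟨23,10,[8,1,2,3,0,0,4,0,0,5,0,0]⟩,
  ⟨30,13,[8,1,2,3,0,0,4,0,0,5,0,0]⟩,
  ⟨44,19,[7,1,2,3,0,0,5,0,0]⟩]

theorem chk : fastTotal 1000000000 (bdS SN) kapT (extT SN) L = some 4357299756 := by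
  decide +kernel

theorem gc : ∀ s ∈ L.dropLast, 0 < s.u ∧ 0 < s.v ∧ gcOK SN s = true ∧ 3 ≤ s.t.length := by
  decide +kernel

end Crest.Agent.R006.OddM10
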