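import Crest.Agent.R006.P8_FastSpec_799
import Crest.Agent.R006.P4Iface_814
import Crest.Agent.R006.Shape_378

set_option autoImplicit false
set_option maxRecDepth 100000

/-! Row 6, P8: strips of the odd certificate of `SN`, chunk 11 (data of helper595, format of helper305
and helper814) -/

namespace Crest.Agent.R006.OddM11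

open Crest.Agent.R006.D Crest.Agent.R006.P8 Crest.Agent.R006.P4If

/-- the strips -/
def L : List St := [
  ⟨44,19,[7,1,2,3,0,0,5,0,0]⟩,
  ⟨7,3,[7,1,2,3,0,0,4,0,0,5,0,0]⟩,
  ⟨40,17,[7,1,2,3,0,0,4,0,0,5,0,0]⟩,
  ⟨26,11,[7,1,2,3,0,0,4,0,0,5,0,0]⟩,
  ⟨12,5,[7,1,2,3,0,0,4,0,0,2,0,0]⟩,
  ⟨46,19,[7,1,2,3,0,0,4,0,0,2,0,0]⟩,
  ⟨56,23,[7,1,2,3,0,0,4,0,0,2,0,0]⟩,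
  ⟨22,9,[7,1,2,3,0,0,4,0,0,2,0,0]⟩,
  ⟨32,13,[7,1,2,4,0,0,3,0,0,2,0,0]⟩,
  ⟨42,17,[7,1,2,4,0,0,3,0,0,2,0,0]⟩,
  ⟨5,2,[7,1,2,4,0,0,3,0,0,2,0,0]⟩,
  ⟨48,19,[7,1,2,4,0,0,3,0,0,2,0,0]⟩,
  ⟨28,11,[7,1,2,4,0,0,3,0,0,2,0,0]⟩,
  ⟨23,9,[7,1,2,4,0,0,3,0,0,2,0,0]⟩,
  ⟨18,7,[7,1,2,4,0,0,3,0,0,2,0,0]⟩,
  ⟨44,17,[7,1,2,2,0,0,4,0,0,3,0,0]⟩,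
  ⟨13,5,[7,1,2,2,0,0,4,0,0,3,0,0]⟩,
  ⟨60,23,[7,1,2,2,0,0,4,0,0,3,0,0]⟩,
  ⟨21,8,[6,1,2,3,0,0,4,0,0,2,0,0]⟩,
  ⟨8,3,[6,1,2,2,0,0,4,0,0,3,0,0]⟩,
  ⟨46,17,[6,1,2,2,0,0,4,0,0,3,0,0]⟩,
  ⟨30,11,[6,1,2,2,0,0,4,0,0,3,0,0]⟩,
  ⟨11,4,[6,1,2,4,0,0,2,0,0,3,0,0]⟩,
  ⟨14,5,[6,1,2,4,0,0,2,0,0]⟩,
  ⟨48,17,[6,1,2,2,0,0,4,0,0]⟩,
  ⟨20,7,[6,1,2,2,0,0,4,0,0]⟩,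
  ⟨23,8,[6,1,2,2,0,0,4,0,0]⟩,
  ⟨26,9,[6,1,2,2,0,0,4,0,0]⟩,
  ⟨32,11,[6,1,2,2,0,0,4,0,0]⟩,
  ⟨44,15,[6,1,2,2,0,0,4,0,0]⟩,
  ⟨56,19,[5,1,2,2,0,0,4,0,0]⟩,
  ⟨3,1,[5,1,1,2,0,0,4,0,0]⟩,
  ⟨46,15,[5,1,1,2,0,0,4,0,0]⟩,
  ⟨40,13,[5,1,1,2,0,0,4,0,0]⟩,
  ⟨28,9,[5,1,1,2,0,0,4,0,0]⟩,
  ⟨22,7,[5,1,1,2,0,0,4,0,0]⟩,
  ⟨60,19,[5,1,1,2,0,0,3,0,0,4,0,0]⟩,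
  ⟨16,5,[5,1,1,2,0,0,3,0,0,4,0,0]⟩,
  ⟨42,13,[5,1,1,2,0,0,4,0,0,3,0,0]⟩,
  ⟨13,4,[5,1,1,2,0,0,4,0,0,1,0,0,3,0,0]⟩,
  ⟨23,7,[5,1,1,2,0,0,4,0,0,1,0,0,3,0,0]⟩,
  ⟨56,17,[5,1,1,2,0,0,3,0,0,1,0,0,4,0,0]⟩,
  ⟨10,3,[5,1,1,1,0,0,3,0,0,2,0,0,4,0,0]⟩,
  ⟨44,13,[5,1,1,1,0,0,3,0,0,2,0,0,4,0,0]⟩,
  ⟨24,7,[5,1,1,1,0,0,3,0,0,4,0,0]⟩,
  ⟨7,2,[5,1,1,1,0,0,3,0,0]⟩,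
  ⟨60,17,[5,1,1,1,0,0,3,0,0]⟩]

theorem chk : fastTotal 1000000000 (bdS SN) kapT (extT SN) L = some 10258855222 := by
  decide +kernel

theorem gc : ∀ s ∈ L.dropLast, 0 < s.u ∧ 0 < s.v ∧ gcOK SN s = true ∧ 3 ≤ s.t.length := by
  decide +kernel

end Crest.Agent.R006.OddM11
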