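import Crest.Agent.R006.P8_FastSpec_799
import Crest.Agent.R006.P4Iface_814
import Crest.Agent.R006.Shape_378

set_option autoImplicit false
set_option maxRecDepth 100000

/-! Row 6, P8: strips of the odd certificate of `SN`, chunk 13 (data of helper595, format of helper305
and helper814) -/

namespace Crest.Agent.R006.OddM13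

open Crest.Agent.R006.D Crest.Agent.R006.P8 Crest.Agent.R006.P4If

/-- the strips -/
def L : List St := [
  ⟨20,3,[2,1,0,2,0,0]⟩,
  ⟨48,7,[2,1,0,2,0,0]⟩,
  ⟨7,1,[2,1,0,2,0,0,1,0,0]⟩,
  ⟨22,3,[2,1,0,2,0,0,1,0,0]⟩,
  ⟨15,2,[2,1,0,2,0,0,1,0,0]⟩,
  ⟨23,3,[2,1,0,2,0,0,1,0,0]⟩,
  ⟨8,1,[2,1,0,1,0,0,2,0,0]⟩,
  ⟨42,5,[1,1,0,2,0,0,1,0,0]⟩,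
  ⟨60,7,[1,1,0,2,0,0,1,0,0]⟩,
  ⟨26,3,[1,1,0,1,0,0,2,0,0]⟩,
  ⟨44,5,[1,1,0,1,0,0,2,0,0]⟩,
  ⟨9,1,[1,1,0,1,0,0,2,0,0]⟩,
  ⟨46,5,[1,1,0,1,0,0,2,0,0]⟩,
  ⟨28,3,[1,1,0,1,0,0,2,0,0]⟩,
  ⟨48,5,[1,1,0,1,0,0,2,0,0]⟩,
  ⟨10,1,[1,1,0,-1,0,0,1,0,0,2,0,0]⟩,
  ⟨21,2,[1,1,0,1,0,0,2,0,0,-1,0,0]⟩,
  ⟨32,3,[1,1,0,1,0,0,-1,0,0,2,0,0]⟩,
  ⟨11,1,[1,1,0,1,0,0,-1,0,0,2,0,0]⟩,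
  ⟨56,5,[1,1,0,1,0,0,-1,0,0,2,0,0]⟩,
  ⟨23,2,[1,1,0,1,0,0,-1,0,0,2,0,0]⟩,
  ⟨12,1,[1,1,0,1,0,0,-1,0,0]⟩,
  ⟨13,1,[1,1,0,1,0,0,-1,0,0]⟩,
  ⟨40,3,[1,1,0,1,0,0,-1,0,0]⟩,
  ⟨14,1,[1,1,0,1,0,0,-1,0,0]⟩,
  ⟨44,3,[1,1,0,1,0,0,-1,0,0]⟩,
  ⟨15,1,[1,1,0,-1,0,0,1,0,0]⟩,
  ⟨46,3,[0,0,0,1,0,0,-1,0,0,2,-1,0]⟩,
  ⟨16,1,[0,0,0,-1,0,0,1,0,0,2,-1,0]⟩,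
  ⟨18,1,[0,0,0,-1,0,0,1,0,0,2,-1,0]⟩,
  ⟨56,3,[0,0,0,-1,0,0,1,0,0,2,-1,0]⟩,
  ⟨20,1,[0,0,0,-7,0,0,1,0,0,-1,0,0,2,-1,0]⟩,
  ⟨21,1,[0,0,0,-1,0,0,1,0,0,-8,0,0,2,-1,0]⟩,
  ⟨22,1,[0,0,0,-7,0,0,1,0,0,-1,0,0,2,-1,0]⟩,
  ⟨23,1,[0,0,0,-7,0,0,1,0,0,-1,0,0,2,-1,0]⟩,
  ⟨24,1,[0,0,0,-7,0,0,1,0,0,2,-1,0]⟩,
  ⟨26,1,[0,0,0,-7,0,0,1,0,0,2,-1,0]⟩,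
  ⟨28,1,[0,0,0,-7,0,0,1,0,0,2,-1,0]⟩,
  ⟨30,1,[0,0,0,-7,0,0,2,-1,0]⟩,
  ⟨32,1,[0,0,0,-7,0,0,2,-1,0]⟩,
  ⟨40,1,[0,0,0,-7,0,0,2,-1,0]⟩,
  ⟨42,1,[0,0,0,-7,0,0,2,-1,0]⟩,
  ⟨44,1,[0,0,0,-7,0,0,2,-1,0]⟩,
  ⟨46,1,[0,0,0,-7,0,0,2,-1,0]⟩,
  ⟨48,1,[0,0,0,-7,0,0]⟩,
  ⟨56,1,[0,0,0,-7,0,0]⟩,
  ⟨60,1,[]⟩]

theorem chk : fastTotal 1000000000 (bdS SN) kapT (extT SN) L = some 405581746021 := by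
  decide +kernel

theorem gc : ∀ s ∈ L.dropLast, 0 < s.u ∧ 0 < s.v ∧ gcOK SN s = true ∧ 3 ≤ s.t.length := by
  decide +kernel

end Crest.Agent.R006.OddM13
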