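import Crest.Agent.R006.P8_FastSpec_799
import Crest.Agent.R006.P4Iface_814
import Crest.Agent.R006.Shape_378

set_option autoImplicit false
set_option maxRecDepth 100000

/-! Row 6, P8: strips of the odd certificate of `SN`, chunk 1 (data of helper595, format of helper305
and helper814) -/

namespace Crest.Agent.R006.OddM1

open Crest.Agent.R006.D Crest.Agent.R006.P8 Crest.Agent.R006.P4If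

/-- the strips -/
def L : List St := [
  ⟨48,89,[33,1,11,17,0,0,19,0,0]⟩,
  ⟨20,37,[33,1,11,17,0,0,19,0,0]⟩,
  ⟨46,85,[33,1,11,17,0,0,19,0,0]⟩,
  ⟨13,24,[33,1,11,17,0,0,19,0,0]⟩,
  ⟨32,59,[33,1,11,17,0,0,19,0,0]⟩,
  ⟨44,81,[33,1,11,17,0,0,19,0,0]⟩,
  ⟨56,103,[32,1,11,17,0,0,19,0,0]⟩,
  ⟨6,11,[32,1,10,17,0,0,19,0,0]⟩,
  ⟨23,42,[32,1,10,17,0,0,19,0,0]⟩,
  ⟨40,73,[32,1,10,17,0,0,19,0,0]⟩,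
  ⟨28,51,[32,1,10,17,0,0,19,0,0]⟩,
  ⟨11,20,[32,1,10,17,0,0,19,0,0]⟩,
  ⟨60,109,[32,1,10,17,0,0,18,0,0,19,0,0]⟩,
  ⟨16,29,[32,1,10,17,0,0,18,0,0,19,0,0]⟩,
  ⟨21,38,[32,1,10,17,0,0,19,0,0,18,0,0]⟩,
  ⟨26,47,[32,1,10,17,0,0,19,0,0,16,0,0,18,0,0]⟩,
  ⟨46,83,[32,1,10,17,0,0,19,0,0,16,0,0,18,0,0]⟩,
  ⟨56,101,[32,1,10,17,0,0,18,0,0,16,0,0,19,0,0]⟩,
  ⟨5,9,[32,1,10,16,0,0,18,0,0,17,0,0,19,0,0]⟩,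
  ⟨44,79,[32,1,10,16,0,0,18,0,0,17,0,0,19,0,0]⟩,
  ⟨24,43,[32,1,10,16,0,0,18,0,0,19,0,0]⟩,
  ⟨14,25,[32,1,10,16,0,0,18,0,0]⟩,
  ⟨60,107,[32,1,10,16,0,0,18,0,0]⟩,
  ⟨23,41,[32,1,10,16,0,0,18,0,0]⟩,
  ⟨32,57,[32,1,10,16,0,0,18,0,0]⟩,
  ⟨9,16,[32,1,10,16,0,0,18,0,0]⟩,
  ⟨40,71,[32,1,10,16,0,0,18,0,0]⟩,
  ⟨22,39,[32,1,10,18,0,0,16,0,0]⟩,
  ⟨48,85,[31,1,10,17,0,0,18,0,0,16,0,0]⟩,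
  ⟨13,23,[31,1,10,16,0,0,18,0,0,17,0,0]⟩,
  ⟨56,99,[31,1,10,16,0,0,18,0,0,17,0,0]⟩,
  ⟨30,53,[31,1,10,16,0,0,18,0,0,17,0,0]⟩,
  ⟨21,37,[31,1,10,16,0,0,18,0,0,17,0,0]⟩,
  ⟨46,81,[31,1,10,16,0,0,18,0,0,17,0,0]⟩,
  ⟨4,7,[31,1,10,16,0,0,18,0,0,17,0,0]⟩,
  ⟨23,40,[31,1,10,16,0,0,18,0,0,17,0,0]⟩,
  ⟨42,73,[31,1,10,16,0,0,18,0,0,17,0,0]⟩,
  ⟨15,26,[31,1,10,16,0,0,18,0,0,17,0,0]⟩,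
  ⟨56,97,[31,1,10,16,0,0,18,0,0,17,0,0]⟩,
  ⟨26,45,[30,1,10,18,0,0,16,0,0]⟩,
  ⟨48,83,[30,1,10,16,0,0,18,0,0]⟩,
  ⟨11,19,[30,1,10,18,0,0,16,0,0]⟩,
  ⟨40,69,[30,1,10,18,0,0,16,0,0]⟩,
  ⟨18,31,[30,1,10,18,0,0,16,0,0]⟩,
  ⟨32,55,[30,1,10,18,0,0,16,0,0]⟩,
  ⟨46,79,[30,1,10,18,0,0,16,0,0]⟩]

theorem chk : fastTotal 1000000000 (bdS SN) kapT (extT SN) L = some 363968448 := by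
  decide +kernel

theorem gc : ∀ s ∈ L.dropLast, 0 < s.u ∧ 0 < s.v ∧ gcOK SN s = true ∧ 3 ≤ s.t.length := by
  decide +kernel

end Crest.Agent.R006.OddM1
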