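import Crest.Agent.R006.P8_FastSpec_799
import Crest.Agent.R006.P4Iface_814
import Crest.Agent.R006.Shape_378

set_option autoImplicit false
set_option maxRecDepth 100000

/-! Row 6, P8: strips of the odd certificate of `SN`, chunk 2 (data of helper595, format of helper305
and helper814) -/

namespace Crest.Agent.R006.OddM2

open Crest.Agent.R006.D Crest.Agent.R006.P8 Crest.Agent.R006.P4If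

/-- the strips -/
def L : List St := [
  ⟨46,79,[30,1,10,18,0,0,16,0,0]⟩,
  ⟨60,103,[30,1,10,18,0,0,16,0,0]⟩,
  ⟨7,12,[30,1,10,18,0,0,16,0,0,15,0,0]⟩,
  ⟨24,41,[30,1,10,18,0,0,15,0,0,16,0,0,17,0,0]⟩,
  ⟨44,75,[30,1,10,18,0,0,16,0,0,15,0,0,17,0,0]⟩,
  ⟨10,17,[30,1,10,17,0,0,16,0,0,15,0,0,18,0,0]⟩,
  ⟨56,95,[30,1,10,17,0,0,15,0,0,16,0,0,18,0,0]⟩,
  ⟨23,39,[30,1,10,17,0,0,15,0,0,16,0,0,18,0,0]⟩,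
  ⟨13,22,[30,1,10,17,0,0,15,0,0,16,0,0]⟩,
  ⟨42,71,[30,1,10,17,0,0,15,0,0,16,0,0]⟩,
  ⟨16,27,[30,1,10,17,0,0,15,0,0,16,0,0]⟩,
  ⟨60,101,[30,1,10,17,0,0,15,0,0]⟩,
  ⟨22,37,[30,1,10,17,0,0,15,0,0]⟩,
  ⟨28,47,[30,1,10,17,0,0,15,0,0]⟩,
  ⟨40,67,[30,1,10,17,0,0,15,0,0]⟩,
  ⟨46,77,[30,1,10,17,0,0,15,0,0]⟩,
  ⟨3,5,[30,1,9,17,0,0,15,0,0]⟩,
  ⟨56,93,[29,1,9,17,0,0,15,0,0]⟩,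
  ⟨44,73,[29,1,9,17,0,0,15,0,0]⟩,
  ⟨32,53,[29,1,9,17,0,0,15,0,0]⟩,
  ⟨26,43,[29,1,9,17,0,0,15,0,0]⟩,
  ⟨23,38,[29,1,9,17,0,0,15,0,0]⟩,
  ⟨20,33,[29,1,9,17,0,0,15,0,0]⟩,
  ⟨48,79,[29,1,9,15,0,0,17,0,0]⟩,
  ⟨14,23,[29,1,9,15,0,0,17,0,0,16,0,0]⟩,
  ⟨11,18,[29,1,9,15,0,0,17,0,0,16,0,0]⟩,
  ⟨30,49,[29,1,9,15,0,0,17,0,0,16,0,0]⟩,
  ⟨46,75,[29,1,9,15,0,0,17,0,0,16,0,0]⟩,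
  ⟨8,13,[29,1,9,16,0,0,15,0,0,17,0,0]⟩,
  ⟨21,34,[28,1,9,17,0,0,15,0,0,16,0,0]⟩,
  ⟨60,97,[28,1,9,17,0,0,15,0,0,16,0,0]⟩,
  ⟨13,21,[28,1,9,15,0,0,16,0,0,17,0,0]⟩,
  ⟨44,71,[28,1,9,15,0,0,16,0,0,17,0,0]⟩,
  ⟨18,29,[28,1,9,15,0,0,16,0,0,17,0,0]⟩,
  ⟨23,37,[28,1,9,15,0,0,16,0,0,17,0,0]⟩,
  ⟨28,45,[28,1,9,15,0,0,16,0,0,17,0,0]⟩,
  ⟨48,77,[28,1,9,15,0,0,16,0,0,17,0,0]⟩,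
  ⟨5,8,[28,1,9,15,0,0,16,0,0,17,0,0]⟩,
  ⟨42,67,[28,1,9,15,0,0,16,0,0,17,0,0]⟩,
  ⟨32,51,[28,1,9,15,0,0,16,0,0,17,0,0]⟩,
  ⟨22,35,[28,1,9,16,0,0,15,0,0,17,0,0]⟩,
  ⟨56,89,[28,1,9,16,0,0,15,0,0,17,0,0]⟩,
  ⟨46,73,[28,1,9,16,0,0,15,0,0,17,0,0]⟩,
  ⟨12,19,[28,1,9,16,0,0,14,0,0,15,0,0]⟩,
  ⟨26,41,[28,1,9,16,0,0,14,0,0,15,0,0]⟩,
  ⟨40,63,[28,1,9,16,0,0,14,0,0,15,0,0]⟩,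
  ⟨7,11,[28,1,9,16,0,0,14,0,0]⟩]

theorem chk : fastTotal 1000000000 (bdS SN) kapT (extT SN) L = some 418812799 := by
  decide +kernel

theorem gc : ∀ s ∈ L.dropLast, 0 < s.u ∧ 0 < s.v ∧ gcOK SN s = true ∧ 3 ≤ s.t.length := by
  decide +kernel

end Crest.Agent.R006.OddM2
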