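import Crest.Agent.R006.P8_FastSpec_799
import Crest.Agent.R006.P4Iface_814
import Crest.Agent.R006.Shape_378

set_option autoImplicit false
set_option maxRecDepth 100000

/-! Row 6, P8: strips of the odd certificate of `SN`, chunk 3 (data of helper595, format of helper305
and helper814) -/

namespace Crest.Agent.R006.OddM3

open Crest.Agent.R006.D Crest.Agent.R006.P8 Crest.Agent.R006.P4If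

/-- the strips -/
def L : List St := [
  ⟨7,11,[28,1,9,16,0,0,14,0,0]⟩,
  ⟨44,69,[27,1,9,16,0,0,15,0,0,14,0,0]⟩,
  ⟨30,47,[27,1,9,16,0,0,15,0,0,14,0,0]⟩,
  ⟨23,36,[27,1,9,16,0,0,15,0,0,14,0,0]⟩,
  ⟨16,25,[27,1,9,16,0,0,15,0,0,14,0,0]⟩,
  ⟨9,14,[27,1,9,16,0,0,15,0,0,14,0,0]⟩,
  ⟨56,87,[27,1,9,16,0,0,14,0,0,15,0,0]⟩,
  ⟨20,31,[27,1,9,14,0,0,16,0,0]⟩,
  ⟨42,65,[27,1,9,14,0,0,16,0,0]⟩,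
  ⟨11,17,[27,1,9,16,0,0,14,0,0]⟩,
  ⟨46,71,[27,1,9,16,0,0,14,0,0]⟩,
  ⟨24,37,[27,1,9,16,0,0,14,0,0]⟩,
  ⟨13,20,[27,1,9,16,0,0,14,0,0]⟩,
  ⟨28,43,[27,1,9,16,0,0,14,0,0]⟩,
  ⟨15,23,[27,1,9,15,0,0,16,0,0,14,0,0]⟩,
  ⟨32,49,[27,1,9,16,0,0,14,0,0,15,0,0]⟩,
  ⟨40,61,[27,1,9,16,0,0,14,0,0,15,0,0]⟩,
  ⟨21,32,[27,1,9,16,0,0,14,0,0,15,0,0]⟩,
  ⟨44,67,[27,1,9,14,0,0,16,0,0,15,0,0]⟩,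
  ⟨23,35,[27,1,9,14,0,0,16,0,0,15,0,0]⟩,
  ⟨48,73,[27,1,9,14,0,0,16,0,0,15,0,0]⟩,
  ⟨56,85,[27,1,9,14,0,0,16,0,0,15,0,0]⟩,
  ⟨60,91,[27,1,9,14,0,0,16,0,0,15,0,0]⟩,
  ⟨2,3,[26,1,8,15,0,0,13,0,0,14,0,0]⟩,
  ⟨60,89,[26,1,8,15,0,0,13,0,0,14,0,0]⟩,
  ⟨56,83,[26,1,8,15,0,0,13,0,0,14,0,0]⟩,
  ⟨48,71,[26,1,8,13,0,0,15,0,0,14,0,0]⟩,
  ⟨23,34,[26,1,8,13,0,0,15,0,0,14,0,0]⟩,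
  ⟨44,65,[26,1,8,13,0,0,15,0,0,14,0,0]⟩,
  ⟨21,31,[26,1,8,13,0,0,15,0,0,14,0,0]⟩,
  ⟨40,59,[26,1,8,13,0,0,15,0,0,14,0,0]⟩,
  ⟨32,47,[26,1,8,13,0,0,15,0,0,14,0,0]⟩,
  ⟨15,22,[26,1,8,13,0,0,15,0,0]⟩,
  ⟨28,41,[26,1,8,13,0,0,15,0,0]⟩,
  ⟨13,19,[26,1,8,13,0,0,15,0,0]⟩,
  ⟨24,35,[26,1,8,13,0,0,15,0,0]⟩,
  ⟨46,67,[26,1,8,13,0,0,15,0,0]⟩,
  ⟨11,16,[26,1,8,15,0,0,13,0,0]⟩,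
  ⟨42,61,[26,1,8,15,0,0,13,0,0]⟩,
  ⟨20,29,[26,1,8,13,0,0,15,0,0,14,0,0]⟩,
  ⟨56,81,[26,1,8,13,0,0,14,0,0,15,0,0]⟩,
  ⟨9,13,[26,1,8,13,0,0,14,0,0,15,0,0]⟩,
  ⟨16,23,[26,1,8,13,0,0,14,0,0,15,0,0]⟩,
  ⟨23,33,[26,1,8,13,0,0,14,0,0,15,0,0]⟩,
  ⟨30,43,[26,1,8,13,0,0,14,0,0,15,0,0]⟩,
  ⟨44,63,[25,1,8,13,0,0,15,0,0]⟩,
  ⟨7,10,[25,1,8,13,0,0,14,0,0,15,0,0]⟩]

theorem chk : fastTotal 1000000000 (bdS SN) kapT (extT SN) L = some 458716625 := by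
  decide +kernel

theorem gc : ∀ s ∈ L.dropLast, 0 < s.u ∧ 0 < s.v ∧ gcOK SN s = true ∧ 3 ≤ s.t.length := by
  decide +kernel

end Crest.Agent.R006.OddM3
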