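import Crest.Agent.R006.P8_FastSpec_799
import Crest.Agent.R006.P4Iface_814
import Crest.Agent.R006.Shape_378

set_option autoImplicit false
set_option maxRecDepth 100000

/-! Row 6, P8: strips of the odd certificate of `SN`, chunk 4 (data of helper595, format of helper305
and helper814) -/

namespace Crest.Agent.R006.OddM4

open Crest.Agent.R006.D Crest.Agent.R006.P8 Crest.Agent.R006.P4If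

/-- the strips -/
def L : List St := [
  ⟨7,10,[25,1,8,13,0,0,14,0,0,15,0,0]⟩,
  ⟨40,57,[25,1,8,13,0,0,14,0,0,15,0,0]⟩,
  ⟨26,37,[25,1,8,13,0,0,14,0,0,15,0,0]⟩,
  ⟨12,17,[25,1,8,13,0,0,14,0,0,12,0,0]⟩,
  ⟨46,65,[25,1,8,13,0,0,14,0,0,12,0,0]⟩,
  ⟨56,79,[25,1,8,13,0,0,14,0,0,12,0,0]⟩,
  ⟨22,31,[25,1,8,13,0,0,14,0,0,12,0,0]⟩,
  ⟨32,45,[25,1,8,14,0,0,13,0,0,12,0,0]⟩,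
  ⟨42,59,[25,1,8,14,0,0,13,0,0,12,0,0]⟩,
  ⟨5,7,[25,1,8,14,0,0,13,0,0,12,0,0]⟩,
  ⟨48,67,[25,1,8,14,0,0,13,0,0,12,0,0]⟩,
  ⟨28,39,[25,1,8,14,0,0,13,0,0,12,0,0]⟩,
  ⟨23,32,[25,1,8,14,0,0,13,0,0,12,0,0]⟩,
  ⟨18,25,[25,1,8,14,0,0,13,0,0,12,0,0]⟩,
  ⟨44,61,[25,1,8,12,0,0,14,0,0,13,0,0]⟩,
  ⟨13,18,[25,1,8,12,0,0,14,0,0,13,0,0]⟩,
  ⟨60,83,[25,1,8,12,0,0,14,0,0,13,0,0]⟩,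
  ⟨21,29,[24,1,8,13,0,0,14,0,0,12,0,0]⟩,
  ⟨8,11,[24,1,8,12,0,0,14,0,0,13,0,0]⟩,
  ⟨46,63,[24,1,8,12,0,0,14,0,0,13,0,0]⟩,
  ⟨30,41,[24,1,8,12,0,0,14,0,0,13,0,0]⟩,
  ⟨11,15,[24,1,8,14,0,0,12,0,0,13,0,0]⟩,
  ⟨14,19,[24,1,8,14,0,0,12,0,0]⟩,
  ⟨48,65,[24,1,8,12,0,0,14,0,0]⟩,
  ⟨20,27,[24,1,8,12,0,0,14,0,0]⟩,
  ⟨23,31,[24,1,8,12,0,0,14,0,0]⟩,
  ⟨26,35,[24,1,8,12,0,0,14,0,0]⟩,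
  ⟨32,43,[24,1,8,12,0,0,14,0,0]⟩,
  ⟨44,59,[24,1,8,12,0,0,14,0,0]⟩,
  ⟨56,75,[23,1,8,12,0,0,14,0,0]⟩,
  ⟨3,4,[23,1,7,12,0,0,14,0,0]⟩,
  ⟨46,61,[23,1,7,12,0,0,14,0,0]⟩,
  ⟨40,53,[23,1,7,12,0,0,14,0,0]⟩,
  ⟨28,37,[23,1,7,12,0,0,14,0,0]⟩,
  ⟨22,29,[23,1,7,12,0,0,14,0,0]⟩,
  ⟨60,79,[23,1,7,12,0,0,13,0,0,14,0,0]⟩,
  ⟨16,21,[23,1,7,12,0,0,13,0,0,14,0,0]⟩,
  ⟨42,55,[23,1,7,12,0,0,14,0,0,13,0,0]⟩,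
  ⟨13,17,[23,1,7,12,0,0,14,0,0,11,0,0,13,0,0]⟩,
  ⟨23,30,[23,1,7,12,0,0,14,0,0,11,0,0,13,0,0]⟩,
  ⟨56,73,[23,1,7,12,0,0,13,0,0,11,0,0,14,0,0]⟩,
  ⟨10,13,[23,1,7,11,0,0,13,0,0,12,0,0,14,0,0]⟩,
  ⟨44,57,[23,1,7,11,0,0,13,0,0,12,0,0,14,0,0]⟩,
  ⟨24,31,[23,1,7,11,0,0,13,0,0,14,0,0]⟩,
  ⟨7,9,[23,1,7,11,0,0,13,0,0]⟩,
  ⟨60,77,[23,1,7,11,0,0,13,0,0]⟩]

theorem chk : fastTotal 1000000000 (bdS SN) kapT (extT SN) L = some 556253044 := by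
  decide +kernel

theorem gc : ∀ s ∈ L.dropLast, 0 < s.u ∧ 0 < s.v ∧ gcOK SN s = true ∧ 3 ≤ s.t.length := by
  decide +kernel

end Crest.Agent.R006.OddM4
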