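import Crest.Agent.R006.P8_FastSpec_799
import Crest.Agent.R006.P4Iface_814
import Crest.Agent.R006.Shape_378

set_option autoImplicit false
set_option maxRecDepth 100000

/-! Row 6, P8: strips of the odd certificate of `SN`, chunk 5 (data of helper595, format of helper305
and helper814) -/

namespace Crest.Agent.R006.OddM5

open Crest.Agent.R006.D Crest.Agent.R006.P8 Crest.Agent.R006.P4If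

/-- the strips -/
def L : List St := [
  ⟨60,77,[23,1,7,11,0,0,13,0,0]⟩,
  ⟨46,59,[23,1,7,11,0,0,13,0,0]⟩,
  ⟨32,41,[23,1,7,11,0,0,13,0,0]⟩,
  ⟨18,23,[23,1,7,11,0,0,13,0,0]⟩,
  ⟨40,51,[23,1,7,11,0,0,13,0,0]⟩,
  ⟨11,14,[23,1,7,13,0,0,11,0,0]⟩,
  ⟨48,61,[22,1,7,12,0,0,13,0,0,11,0,0]⟩,
  ⟨26,33,[22,1,7,11,0,0,13,0,0,12,0,0]⟩,
  ⟨56,71,[22,1,7,11,0,0,13,0,0,12,0,0]⟩,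
  ⟨15,19,[22,1,7,11,0,0,13,0,0,12,0,0]⟩,
  ⟨42,53,[22,1,7,11,0,0,13,0,0,12,0,0]⟩,
  ⟨23,29,[22,1,7,11,0,0,13,0,0,12,0,0]⟩,
  ⟨4,5,[22,1,7,11,0,0,13,0,0,12,0,0]⟩,
  ⟨46,57,[22,1,7,11,0,0,13,0,0,12,0,0]⟩,
  ⟨21,26,[22,1,7,11,0,0,13,0,0,12,0,0]⟩,
  ⟨30,37,[22,1,7,11,0,0,13,0,0,12,0,0]⟩,
  ⟨56,69,[22,1,7,11,0,0,13,0,0,12,0,0]⟩,
  ⟨13,16,[21,1,7,13,0,0,11,0,0]⟩,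
  ⟨48,59,[21,1,7,11,0,0,13,0,0]⟩,
  ⟨22,27,[21,1,7,13,0,0,11,0,0]⟩,
  ⟨40,49,[21,1,7,13,0,0,11,0,0]⟩,
  ⟨9,11,[21,1,7,13,0,0,11,0,0]⟩,
  ⟨32,39,[21,1,7,13,0,0,11,0,0]⟩,
  ⟨23,28,[21,1,7,13,0,0,11,0,0]⟩,
  ⟨60,73,[21,1,7,13,0,0,11,0,0]⟩,
  ⟨14,17,[21,1,7,13,0,0,11,0,0,10,0,0]⟩,
  ⟨24,29,[21,1,7,13,0,0,10,0,0,11,0,0,12,0,0]⟩,
  ⟨44,53,[21,1,7,13,0,0,11,0,0,10,0,0,12,0,0]⟩,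
  ⟨5,6,[21,1,7,12,0,0,11,0,0,10,0,0,13,0,0]⟩,
  ⟨56,67,[21,1,7,12,0,0,10,0,0,11,0,0,13,0,0]⟩,
  ⟨46,55,[21,1,7,12,0,0,10,0,0,11,0,0,13,0,0]⟩,
  ⟨26,31,[21,1,7,12,0,0,10,0,0,11,0,0]⟩,
  ⟨21,25,[21,1,7,12,0,0,10,0,0,11,0,0]⟩,
  ⟨16,19,[21,1,7,12,0,0,10,0,0,11,0,0]⟩,
  ⟨60,71,[21,1,7,12,0,0,10,0,0]⟩,
  ⟨11,13,[21,1,7,12,0,0,10,0,0]⟩,
  ⟨28,33,[21,1,7,12,0,0,10,0,0]⟩,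
  ⟨40,47,[21,1,7,12,0,0,10,0,0]⟩,
  ⟨23,27,[21,1,7,12,0,0,10,0,0]⟩,
  ⟨6,7,[21,1,6,12,0,0,10,0,0]⟩,
  ⟨56,65,[20,1,6,12,0,0,10,0,0]⟩,
  ⟨44,51,[20,1,6,12,0,0,10,0,0]⟩,
  ⟨32,37,[20,1,6,12,0,0,10,0,0]⟩,
  ⟨13,15,[20,1,6,12,0,0,10,0,0]⟩,
  ⟨46,53,[20,1,6,12,0,0,10,0,0]⟩,
  ⟨20,23,[20,1,6,12,0,0,10,0,0]⟩,
  ⟨48,55,[20,1,6,10,0,0,12,0,0]⟩]

theorem chk : fastTotal 1000000000 (bdS SN) kapT (extT SN) L = some 557146098 := by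
  decide +kernel

theorem gc : ∀ s ∈ L.dropLast, 0 < s.u ∧ 0 < s.v ∧ gcOK SN s = true ∧ 3 ≤ s.t.length := by
  decide +kernel

end Crest.Agent.R006.OddM5
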