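import Crest.Agent.R006.P8_FastSpec_799
import Crest.Agent.R006.P4Iface_814
import Crest.Agent.R006.Shape_378

set_option autoImplicit false
set_option maxRecDepth 100000

/-! Row 6, P8: strips of the odd certificate of `SN`, chunk 6 (data of helper595, format of helper305
and helper814) -/

namespace Crest.Agent.R006.OddM6

open Crest.Agent.R006.D Crest.Agent.R006.P8 Crest.Agent.R006.P4If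

/-- the strips -/
def L : List St := [
  ⟨48,55,[20,1,6,10,0,0,12,0,0]⟩,
  ⟨7,8,[20,1,6,10,0,0,12,0,0,11,0,0]⟩,
  ⟨22,25,[20,1,6,10,0,0,12,0,0,11,0,0]⟩,
  ⟨15,17,[20,1,6,10,0,0,12,0,0,11,0,0]⟩,
  ⟨23,26,[20,1,6,10,0,0,12,0,0,11,0,0]⟩,
  ⟨8,9,[20,1,6,11,0,0,10,0,0,12,0,0]⟩,
  ⟨42,47,[19,1,6,12,0,0,10,0,0,11,0,0]⟩,
  ⟨60,67,[19,1,6,12,0,0,10,0,0,11,0,0]⟩,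
  ⟨26,29,[19,1,6,10,0,0,11,0,0,12,0,0]⟩,
  ⟨44,49,[19,1,6,10,0,0,11,0,0,12,0,0]⟩,
  ⟨9,10,[19,1,6,10,0,0,11,0,0,12,0,0]⟩,
  ⟨46,51,[19,1,6,10,0,0,11,0,0,12,0,0]⟩,
  ⟨28,31,[19,1,6,10,0,0,11,0,0,12,0,0]⟩,
  ⟨48,53,[19,1,6,10,0,0,11,0,0,12,0,0]⟩,
  ⟨10,11,[19,1,6,10,0,0,11,0,0,12,0,0]⟩,
  ⟨21,23,[19,1,6,10,0,0,11,0,0,12,0,0]⟩,
  ⟨32,35,[19,1,6,10,0,0,11,0,0,12,0,0]⟩,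
  ⟨11,12,[19,1,6,11,0,0,10,0,0,12,0,0]⟩,
  ⟨56,61,[19,1,6,11,0,0,10,0,0,12,0,0]⟩,
  ⟨23,25,[19,1,6,11,0,0,10,0,0,12,0,0]⟩,
  ⟨12,13,[19,1,6,11,0,0,9,0,0,10,0,0]⟩,
  ⟨13,14,[19,1,6,11,0,0,9,0,0,10,0,0]⟩,
  ⟨40,43,[19,1,6,11,0,0,9,0,0,10,0,0]⟩,
  ⟨14,15,[19,1,6,11,0,0,9,0,0]⟩,
  ⟨44,47,[18,1,6,11,0,0,10,0,0,9,0,0]⟩,
  ⟨15,16,[18,1,6,11,0,0,10,0,0,9,0,0]⟩,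
  ⟨46,49,[18,1,6,11,0,0,10,0,0,9,0,0]⟩,
  ⟨16,17,[18,1,6,11,0,0,10,0,0,9,0,0]⟩,
  ⟨18,19,[18,1,6,11,0,0,10,0,0,9,0,0]⟩,
  ⟨56,59,[18,1,6,11,0,0,9,0,0,10,0,0]⟩,
  ⟨20,21,[18,1,6,9,0,0,11,0,0]⟩,
  ⟨21,22,[18,1,6,9,0,0,11,0,0]⟩,
  ⟨22,23,[18,1,6,11,0,0,9,0,0]⟩,
  ⟨23,24,[18,1,6,11,0,0,9,0,0]⟩,
  ⟨24,25,[18,1,6,11,0,0,9,0,0]⟩,
  ⟨26,27,[18,1,6,11,0,0,9,0,0]⟩,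
  ⟨28,29,[18,1,6,11,0,0,9,0,0]⟩,
  ⟨30,31,[18,1,6,10,0,0,11,0,0,9,0,0]⟩,
  ⟨32,33,[18,1,6,11,0,0,9,0,0,10,0,0]⟩,
  ⟨40,41,[18,1,6,11,0,0,9,0,0,10,0,0]⟩,
  ⟨42,43,[18,1,6,11,0,0,9,0,0,10,0,0]⟩,
  ⟨44,45,[18,1,6,9,0,0,11,0,0,10,0,0]⟩,
  ⟨46,47,[18,1,6,9,0,0,11,0,0,10,0,0]⟩,
  ⟨48,49,[18,1,6,9,0,0,11,0,0,10,0,0]⟩,
  ⟨56,57,[18,1,6,9,0,0,11,0,0,10,0,0]⟩,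
  ⟨60,61,[18,1,6,9,0,0,11,0,0,10,0,0]⟩,
  ⟨1,1,[17,1,5,10,0,0,8,0,0,9,0,0]⟩]

theorem chk : fastTotal 1000000000 (bdS SN) kapT (extT SN) L = some 632023996 := by
  decide +kernel

theorem gc : ∀ s ∈ L.dropLast, 0 < s.u ∧ 0 < s.v ∧ gcOK SN s = true ∧ 3 ≤ s.t.length := by
  decide +kernel

end Crest.Agent.R006.OddM6
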