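import Crest.Agent.R006.P8_FastSpec_799
import Crest.Agent.R006.P4Iface_814
import Crest.Agent.R006.Shape_378

set_option autoImplicit false
set_option maxRecDepth 100000

/-! Row 6, P8: strips of the odd certificate of `SN`, chunk 7 (data of helper595, format of helper305
and helper814) -/

namespace Crest.Agent.R006.OddM7

open Crest.Agent.R006.D Crest.Agent.R006.P8 Crest.Agent.R006.P4If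

/-- the strips -/
def L : List St := [
  ⟨1,1,[17,1,5,10,0,0,8,0,0,9,0,0]⟩,
  ⟨60,59,[17,1,5,10,0,0,8,0,0,9,0,0]⟩,
  ⟨56,55,[17,1,5,10,0,0,8,0,0,9,0,0]⟩,
  ⟨48,47,[17,1,5,8,0,0,10,0,0,9,0,0]⟩,
  ⟨46,45,[17,1,5,8,0,0,10,0,0,9,0,0]⟩,
  ⟨44,43,[17,1,5,8,0,0,10,0,0,9,0,0]⟩,
  ⟨42,41,[17,1,5,8,0,0,10,0,0,9,0,0]⟩,
  ⟨40,39,[17,1,5,8,0,0,10,0,0,9,0,0]⟩,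
  ⟨32,31,[17,1,5,8,0,0,10,0,0,9,0,0]⟩,
  ⟨30,29,[17,1,5,8,0,0,10,0,0]⟩,
  ⟨28,27,[17,1,5,8,0,0,10,0,0]⟩,
  ⟨26,25,[17,1,5,8,0,0,10,0,0]⟩,
  ⟨24,23,[17,1,5,8,0,0,10,0,0]⟩,
  ⟨23,22,[17,1,5,8,0,0,10,0,0]⟩,
  ⟨22,21,[17,1,5,10,0,0,8,0,0]⟩,
  ⟨21,20,[17,1,5,10,0,0,8,0,0]⟩,
  ⟨20,19,[17,1,5,8,0,0,10,0,0,9,0,0]⟩,
  ⟨56,53,[17,1,5,8,0,0,9,0,0,10,0,0]⟩,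
  ⟨18,17,[17,1,5,8,0,0,9,0,0,10,0,0]⟩,
  ⟨16,15,[17,1,5,8,0,0,9,0,0,10,0,0]⟩,
  ⟨46,43,[17,1,5,8,0,0,9,0,0,10,0,0]⟩,
  ⟨15,14,[17,1,5,8,0,0,9,0,0,10,0,0]⟩,
  ⟨44,41,[16,1,5,8,0,0,10,0,0]⟩,
  ⟨14,13,[16,1,5,8,0,0,9,0,0,10,0,0]⟩,
  ⟨40,37,[16,1,5,8,0,0,9,0,0,10,0,0]⟩,
  ⟨13,12,[16,1,5,8,0,0,9,0,0,10,0,0]⟩,
  ⟨12,11,[16,1,5,8,0,0,9,0,0,7,0,0]⟩,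
  ⟨23,21,[16,1,5,8,0,0,9,0,0,7,0,0]⟩,
  ⟨56,51,[16,1,5,8,0,0,9,0,0,7,0,0]⟩,
  ⟨11,10,[16,1,5,8,0,0,9,0,0,7,0,0]⟩,
  ⟨32,29,[16,1,5,9,0,0,8,0,0,7,0,0]⟩,
  ⟨21,19,[16,1,5,9,0,0,8,0,0,7,0,0]⟩,
  ⟨10,9,[16,1,5,9,0,0,8,0,0,7,0,0]⟩,
  ⟨48,43,[16,1,5,9,0,0,8,0,0,7,0,0]⟩,
  ⟨28,25,[16,1,5,9,0,0,8,0,0,7,0,0]⟩,
  ⟨46,41,[16,1,5,9,0,0,8,0,0,7,0,0]⟩,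
  ⟨9,8,[16,1,5,9,0,0,8,0,0,7,0,0]⟩,
  ⟨44,39,[16,1,5,7,0,0,9,0,0,8,0,0]⟩,
  ⟨26,23,[16,1,5,7,0,0,9,0,0,8,0,0]⟩,
  ⟨60,53,[16,1,5,7,0,0,9,0,0,8,0,0]⟩,
  ⟨42,37,[15,1,5,8,0,0,9,0,0,7,0,0]⟩,
  ⟨8,7,[15,1,5,7,0,0,9,0,0,8,0,0]⟩,
  ⟨23,20,[15,1,5,7,0,0,9,0,0,8,0,0]⟩,
  ⟨15,13,[15,1,5,7,0,0,9,0,0,8,0,0]⟩,
  ⟨22,19,[15,1,5,9,0,0,7,0,0,8,0,0]⟩,
  ⟨7,6,[15,1,5,9,0,0,7,0,0]⟩]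

theorem chk : fastTotal 1000000000 (bdS SN) kapT (extT SN) L = some 1290947117 := by
  decide +kernel

theorem gc : ∀ s ∈ L.dropLast, 0 < s.u ∧ 0 < s.v ∧ gcOK SN s = true ∧ 3 ≤ s.t.length := by
  decide +kernel

end Crest.Agent.R006.OddM7
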