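import Crest.Agent.R006.P8_FastSpec_799
import Crest.Agent.R006.P4Iface_814
import Crest.Agent.R006.Shape_378

set_option autoImplicit false
set_option maxRecDepth 100000

/-! Row 6, P8: strips of the odd certificate of `SN`, chunk 8 (data of helper595, format of helper305
and helper814) -/

namespace Crest.Agent.R006.OddM8

open Crest.Agent.R006.D Crest.Agent.R006.P8 Crest.Agent.R006.P4If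

/-- the strips -/
def L : List St := [
  ⟨7,6,[15,1,5,9,0,0,7,0,0]⟩,
  ⟨48,41,[15,1,5,7,0,0,9,0,0]⟩,
  ⟨20,17,[15,1,5,7,0,0,9,0,0]⟩,
  ⟨46,39,[15,1,5,7,0,0,9,0,0]⟩,
  ⟨13,11,[15,1,5,7,0,0,9,0,0]⟩,
  ⟨32,27,[15,1,5,7,0,0,9,0,0]⟩,
  ⟨44,37,[15,1,5,7,0,0,9,0,0]⟩,
  ⟨56,47,[14,1,5,7,0,0,9,0,0]⟩,
  ⟨6,5,[14,1,4,7,0,0,9,0,0]⟩,
  ⟨23,19,[14,1,4,7,0,0,9,0,0]⟩,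
  ⟨40,33,[14,1,4,7,0,0,9,0,0]⟩,
  ⟨28,23,[14,1,4,7,0,0,9,0,0]⟩,
  ⟨11,9,[14,1,4,7,0,0,9,0,0]⟩,
  ⟨60,49,[14,1,4,7,0,0,8,0,0,9,0,0]⟩,
  ⟨16,13,[14,1,4,7,0,0,8,0,0,9,0,0]⟩,
  ⟨21,17,[14,1,4,7,0,0,9,0,0,8,0,0]⟩,
  ⟨26,21,[14,1,4,7,0,0,9,0,0,6,0,0,8,0,0]⟩,
  ⟨46,37,[14,1,4,7,0,0,9,0,0,6,0,0,8,0,0]⟩,
  ⟨56,45,[14,1,4,7,0,0,8,0,0,6,0,0,9,0,0]⟩,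
  ⟨5,4,[14,1,4,6,0,0,8,0,0,7,0,0,9,0,0]⟩,
  ⟨44,35,[14,1,4,6,0,0,8,0,0,7,0,0,9,0,0]⟩,
  ⟨24,19,[14,1,4,6,0,0,8,0,0,9,0,0]⟩,
  ⟨14,11,[14,1,4,6,0,0,8,0,0]⟩,
  ⟨60,47,[14,1,4,6,0,0,8,0,0]⟩,
  ⟨23,18,[14,1,4,6,0,0,8,0,0]⟩,
  ⟨32,25,[14,1,4,6,0,0,8,0,0]⟩,
  ⟨9,7,[14,1,4,6,0,0,8,0,0]⟩,
  ⟨40,31,[14,1,4,6,0,0,8,0,0]⟩,
  ⟨22,17,[14,1,4,8,0,0,6,0,0]⟩,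
  ⟨48,37,[13,1,4,7,0,0,8,0,0,6,0,0]⟩,
  ⟨13,10,[13,1,4,6,0,0,8,0,0,7,0,0]⟩,
  ⟨56,43,[13,1,4,6,0,0,8,0,0,7,0,0]⟩,
  ⟨30,23,[13,1,4,6,0,0,8,0,0,7,0,0]⟩,
  ⟨21,16,[13,1,4,6,0,0,8,0,0,7,0,0]⟩,
  ⟨46,35,[13,1,4,6,0,0,8,0,0,7,0,0]⟩,
  ⟨4,3,[13,1,4,6,0,0,8,0,0,7,0,0]⟩,
  ⟨23,17,[13,1,4,6,0,0,8,0,0,7,0,0]⟩,
  ⟨42,31,[13,1,4,6,0,0,8,0,0,7,0,0]⟩,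
  ⟨15,11,[13,1,4,6,0,0,8,0,0,7,0,0]⟩,
  ⟨56,41,[13,1,4,6,0,0,8,0,0,7,0,0]⟩,
  ⟨26,19,[12,1,4,8,0,0,6,0,0]⟩,
  ⟨48,35,[12,1,4,6,0,0,8,0,0]⟩,
  ⟨11,8,[12,1,4,8,0,0,6,0,0]⟩,
  ⟨40,29,[12,1,4,8,0,0,6,0,0]⟩,
  ⟨18,13,[12,1,4,8,0,0,6,0,0]⟩,
  ⟨32,23,[12,1,4,8,0,0,6,0,0]⟩,
  ⟨46,33,[12,1,4,8,0,0,6,0,0]⟩]

theorem chk : fastTotal 1000000000 (bdS SN) kapT (extT SN) L = some 1934438055 := by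
  decide +kernel

theorem gc : ∀ s ∈ L.dropLast, 0 < s.u ∧ 0 < s.v ∧ gcOK SN s = true ∧ 3 ≤ s.t.length := by
  decide +kernel

end Crest.Agent.R006.OddM8
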