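import Crest.Agent.R006.P8_FastSpec_799
import Crest.Agent.R006.P4Iface_814
import Crest.Agent.R006.Shape_378

set_option autoImplicit false
set_option maxRecDepth 100000

/-! Row 6, P8: strips of the odd certificate of `SN`, chunk 9 (data of helper595, format of helper305
and helper814) -/

namespace Crest.Agent.R006.OddM9

open Crest.Agent.R006.D Crest.Agent.R006.P8 Crest.Agent.R006.P4If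

/-- the strips -/
def L : List St := [
  ⟨46,33,[12,1,4,8,0,0,6,0,0]⟩,
  ⟨60,43,[12,1,4,8,0,0,6,0,0]⟩,
  ⟨7,5,[12,1,4,8,0,0,6,0,0,5,0,0]⟩,
  ⟨24,17,[12,1,4,8,0,0,5,0,0,6,0,0,7,0,0]⟩,
  ⟨44,31,[12,1,4,8,0,0,6,0,0,5,0,0,7,0,0]⟩,
  ⟨10,7,[12,1,4,7,0,0,6,0,0,5,0,0,8,0,0]⟩,
  ⟨56,39,[12,1,4,7,0,0,5,0,0,6,0,0,8,0,0]⟩,
  ⟨23,16,[12,1,4,7,0,0,5,0,0,6,0,0,8,0,0]⟩,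
  ⟨13,9,[12,1,4,7,0,0,5,0,0,6,0,0]⟩,
  ⟨42,29,[12,1,4,7,0,0,5,0,0,6,0,0]⟩,
  ⟨16,11,[12,1,4,7,0,0,5,0,0,6,0,0]⟩,
  ⟨60,41,[12,1,4,7,0,0,5,0,0]⟩,
  ⟨22,15,[12,1,4,7,0,0,5,0,0]⟩,
  ⟨28,19,[12,1,4,7,0,0,5,0,0]⟩,
  ⟨40,27,[12,1,4,7,0,0,5,0,0]⟩,
  ⟨46,31,[12,1,4,7,0,0,5,0,0]⟩,
  ⟨3,2,[12,1,3,7,0,0,5,0,0]⟩,
  ⟨56,37,[11,1,3,7,0,0,5,0,0]⟩,
  ⟨44,29,[11,1,3,7,0,0,5,0,0]⟩,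
  ⟨32,21,[11,1,3,7,0,0,5,0,0]⟩,
  ⟨26,17,[11,1,3,7,0,0,5,0,0]⟩,
  ⟨23,15,[11,1,3,7,0,0,5,0,0]⟩,
  ⟨20,13,[11,1,3,7,0,0,5,0,0]⟩,
  ⟨48,31,[11,1,3,5,0,0,7,0,0]⟩,
  ⟨14,9,[11,1,3,5,0,0,7,0,0,6,0,0]⟩,
  ⟨11,7,[11,1,3,5,0,0,7,0,0,6,0,0]⟩,
  ⟨30,19,[11,1,3,5,0,0,7,0,0,6,0,0]⟩,
  ⟨46,29,[11,1,3,5,0,0,7,0,0,6,0,0]⟩,
  ⟨8,5,[11,1,3,6,0,0,5,0,0,7,0,0]⟩,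
  ⟨21,13,[10,1,3,7,0,0,5,0,0,6,0,0]⟩,
  ⟨60,37,[10,1,3,7,0,0,5,0,0,6,0,0]⟩,
  ⟨13,8,[10,1,3,5,0,0,6,0,0,7,0,0]⟩,
  ⟨44,27,[10,1,3,5,0,0,6,0,0,7,0,0]⟩,
  ⟨18,11,[10,1,3,5,0,0,6,0,0,7,0,0]⟩,
  ⟨23,14,[10,1,3,5,0,0,6,0,0,7,0,0]⟩,
  ⟨28,17,[10,1,3,5,0,0,6,0,0,7,0,0]⟩,
  ⟨48,29,[10,1,3,5,0,0,6,0,0,7,0,0]⟩,
  ⟨5,3,[10,1,3,5,0,0,6,0,0,7,0,0]⟩,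
  ⟨42,25,[10,1,3,5,0,0,6,0,0,7,0,0]⟩,
  ⟨32,19,[10,1,3,5,0,0,6,0,0,7,0,0]⟩,
  ⟨22,13,[10,1,3,6,0,0,5,0,0,7,0,0]⟩,
  ⟨56,33,[10,1,3,6,0,0,5,0,0,7,0,0]⟩,
  ⟨46,27,[10,1,3,6,0,0,5,0,0,7,0,0]⟩,
  ⟨12,7,[10,1,3,6,0,0,4,0,0,5,0,0]⟩,
  ⟨26,15,[10,1,3,6,0,0,4,0,0,5,0,0]⟩,
  ⟨40,23,[10,1,3,6,0,0,4,0,0,5,0,0]⟩]

theorem chk : fastTotal 1000000000 (bdS SN) kapT (extT SN) L = some 2875439922 := by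
  decide +kernel

theorem gc : ∀ s ∈ L.dropLast, 0 < s.u ∧ 0 < s.v ∧ gcOK SN s = true ∧ 3 ≤ s.t.length := by
  decide +kernel

end Crest.Agent.R006.OddM9
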