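import Mathlib

/-!
# Row 6, block P6 (p = 2), line B, leaf N (helper618): the real quadratic

`F2r` is the (normalised) 2-adic exponent as a function of the numbers of nodes in each mode
(per unit): `mu` R-type G-nodes, `kap` Q-type G-nodes below `a1`, `eq`, `hq`, `wq` the Q-type
nodes among the third jets at `-m`, at `l+1/2`, and among the w-rows.  It is strictly convex with
a Hessian that does not depend on the shape, so a lower bound is a linear (KKT) certificate.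
-/

set_option autoImplicit false

namespace Crest.Agent.R006.P6N618

/-- the exponent; `A` = number of R-columns, `a = a1+a2+r1`, `K` = number of Q-columns,
`N` = number of rows, `Nh` = number of half-integer rows -/
noncomputable def F2r (A a B a1 K N Nh w mu kap eq hq wq : ℝ) : ℝ :=
  ((N - K - mu - (Nh - hq - wq)) - (Nh - hq - wq)) ^ 2 / 2 + mu ^ 2 / 2
    + (K - 2 * (hq + wq)) ^ 2 / 2 + (A - mu) * (Nh - hq - wq) + (A - mu) ^ 2 / 2 + mu * a
    - 3 * ((mu + (K - eq - hq - wq - kap)) * B - (mu + (K - eq - hq - wq - kap)) ^ 2 / 2)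
    - ((K - eq - hq - wq - kap) * B - (K - eq - hq - wq - kap) ^ 2 / 2)
    - 4 * (kap * a1 - kap ^ 2 / 2) + 2 * eq ^ 2 + 2 * hq ^ 2 - 4 * (wq * w - wq ^ 2 / 2)

/-- the quadratic part -/
noncomputable def Qd (mu kap eq hq wq : ℝ) : ℝ :=
  (-mu + 2 * (hq + wq)) ^ 2 / 2 + mu ^ 2 / 2 + (2 * (hq + wq)) ^ 2 / 2 + mu * (hq + wq)
    + mu ^ 2 / 2 + 3 / 2 * (mu - eq - hq - wq - kap) ^ 2 + (eq + hq + wq + kap) ^ 2 / 2
    + 2 * kap ^ 2 + 2 * eq ^ 2 + 2 * hq ^ 2 + 2 * wq ^ 2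

theorem Qd_nonneg (mu kap eq hq wq : ℝ) : 0 ≤ Qd mu kap eq hq wq := by
  unfold Qd
  nlinarith [sq_nonneg (mu - (hq + wq)), sq_nonneg (hq + wq), sq_nonneg mu, sq_nonneg kap,
    sq_nonneg eq, sq_nonneg hq, sq_nonneg wq, sq_nonneg (mu - eq - hq - wq - kap),
    sq_nonneg (eq + hq + wq + kap), sq_nonneg (-mu + 2 * (hq + wq))]

/-- Taylor expansion at `(m0, k0, e0, h0, w0)` -/
theorem F2r_expand (A a B a1 K N Nh w m0 k0 e0 h0 w0 mu kap eq hq wq : ℝ) :
    F2r A a B a1 K N Nh w mu kap eq hq wq =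
      F2r A a B a1 K N Nh w m0 k0 e0 h0 w0
      + ((-(N - K - m0 - 2 * (Nh - h0 - w0)) + m0 - (Nh - h0 - w0) - (A - m0) + a
          - 3 * (B - (m0 + (K - e0 - h0 - w0 - k0)))) * (mu - m0)
        + (3 * (B - (m0 + (K - e0 - h0 - w0 - k0))) + (B - (K - e0 - h0 - w0 - k0))
          - 4 * (a1 - k0)) * (kap - k0)
        + (3 * (B - (m0 + (K - e0 - h0 - w0 - k0))) + (B - (K - e0 - h0 - w0 - k0))
          + 4 * e0) * (eq - e0)
        + (2 * (N - K - m0 - 2 * (Nh - h0 - w0)) - 2 * (K - 2 * (h0 + w0)) - (A - m0)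
          + 3 * (B - (m0 + (K - e0 - h0 - w0 - k0))) + (B - (K - e0 - h0 - w0 - k0))
          + 4 * h0) * (hq - h0)
        + (2 * (N - K - m0 - 2 * (Nh - h0 - w0)) - 2 * (K - 2 * (h0 + w0)) - (A - m0)
          + 3 * (B - (m0 + (K - e0 - h0 - w0 - k0))) + (B - (K - e0 - h0 - w0 - k0))
          - 4 * (w - w0)) * (wq - w0))
      + Qd (mu - m0) (kap - k0) (eq - e0) (hq - h0) (wq - w0) := by
  unfold F2r Qd
  ring

/-- the certificate for the frozen shape `SN` = {B 24, e1 6, e2 2, h1 2, h2 1, a1 1, i1 = w 6,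
q = g 10}: `A = k = 21`, `a = a1+a2+r1 = 1`, `N = rows = 41`, `Nh = h1+h2+h3+w = 9`;
`1187/2 = A (a + 2 i1) + A^2/2 + q^2/2 + g^2/2`, optimum `40727/28 = 1454.5357..` at
`mu = 223/14`, `wq = 41/14` -/
theorem F2r_SN (mu kap eq hq wq : ℝ) (h1 : mu + (10 - eq - hq - wq - kap) + 1 ≤ 24)
    (hk : 0 ≤ kap) (he : 0 ≤ eq) (hh : 0 ≤ hq) :
    1187 / 2 - 40727 / 28 ≤ F2r 21 1 24 1 10 41 9 6 mu kap eq hq wq := by
  unfold F2r
  nlinarith [sq_nonneg ((mu-223/14) - (hq + (wq-41/14))), sq_nonneg (hq + (wq-41/14)),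
    sq_nonneg (mu-223/14), sq_nonneg kap, sq_nonneg eq, sq_nonneg hq, sq_nonneg (wq-41/14),
    sq_nonneg ((mu-223/14) - eq - hq - (wq-41/14) - kap),
    sq_nonneg (eq + hq + (wq-41/14) + kap), sq_nonneg (-(mu-223/14) + 2 * (hq + (wq-41/14)))]

end Crest.Agent.R006.P6N618
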