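import Crest.Agent.R006.P8_FastSpec_799
import Crest.Agent.R006.KindsS_305

/-!
# Row 6, block P8: a complete toy instance of the strip certificate (helper965)

Template for the emitter: shape `B 24, e1 7, h1 2, i1 = w 6, q = g 9` (helper248), real class cost
`kapS` (`KindsS_305`), strips `6 ≤ x ≤ 60`, two chunks evaluated by the kernel with `fastTotal`
(`P8_Fast_799`) and joined with `fastTotal_append`. Measured: 0.5 s per strip (13 boundaries, 2-4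
triples per strip), of this 0.2 s for the walk.
-/

set_option autoImplicit false
set_option maxRecDepth 100000

namespace Crest.Agent.R006.P8.Toyx965

open Crest.Agent.R006.D

/-- the shape -/
def S : Shape := ⟨24, 7, 0, 0, 2, 0, 0, 6, 0, 0, 6, 0, 9, 9⟩

/-- its boundaries -/
def bd : List (ℤ × ℤ) := [(0, 0), (24, 0), (-7, 0), (0, 0), (0, 1), (2, 1), (0, 1), (0, 0), (-6, 1), (-6, 1), (21, 0), (9, 0), (9, 0)]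

theorem bd_eq : bd = bdS S := by decide +kernel

/-- the external part (toy: without the floor of the gauge denominators) -/
def ext (t : List ℤ) : ℤ := 27 * t.headD 0 + 9 * t.tail.headD 0

/-- first chunk (without its right end) -/
def L1 : List St := [⟨6, 1, [2, 1, 0, 0, 0, 1, 0, 0, 2, 0, 0]⟩,
  ⟨31, 5, [2, 1, 0, 0, 0, 1, 0, 0, 2, 0, 0]⟩,
  ⟨44, 7, [2, 1, 0, 0, 0, 1, 0, 0, 2, 0, 0]⟩,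
  ⟨20, 3, [2, 1, 0, 0, 0, 1, 0, 0, 2, 0, 0]⟩,
  ⟨48, 7, [2, 1, 0, 0, 0, 1, 0, 0, 2, 0, 0]⟩,
  ⟨7, 1, [2, 1, 0, 0, 0, 1, 0, 0, 2, 0, 0]⟩,
  ⟨15, 2, [2, 1, 0, 0, 0, 1, 0, 0, 2, 0, 0]⟩,
  ⟨38, 5, [2, 1, 0, 0, 0, 1, 0, 0, 2, 0, 0]⟩,
  ⟨54, 7, [2, 1, 0, 0, 0, 1, 0, 0, 2, 0, 0]⟩,
  ⟨31, 4, [2, 1, -1, 0, 0, 0, 0, 0, 1, 0, 0, 2, 0, 0]⟩,
  ⟨8, 1, [2, 1, -1, 0, 0, 0, 0, 0, 1, 0, 0]⟩,
  ⟨42, 5, [2, 1, -1, 0, 0, 0, 0, 0, 1, 0, 0]⟩,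
  ⟨60, 7, [2, 1, -1, 0, 0, 0, 0, 0, 1, 0, 0]⟩,
  ⟨44, 5, [2, 1, -1, 0, 0, 0, 0, 0, 1, 0, 0]⟩,
  ⟨9, 1, [1, 1, -1, 0, 0, 0, 0, 0, 1, 0, 0]⟩,
  ⟨28, 3, [1, 1, -1, 0, 0, 0, 0, 0, 1, 0, 0]⟩,
  ⟨48, 5, [1, 1, -1, 0, 0, 0, 0, 0, 1, 0, 0]⟩,
  ⟨10, 1, [1, 1, -1, 0, 0, 0, 0, 0, 1, 0, 0]⟩,
  ⟨31, 3, [1, 1, -1, 0, 0, 1, 0, 0]⟩,
  ⟨21, 2, [1, 1, -1, 0, 0, 1, 0, 0]⟩]

/-- the cut -/
def s : St := ⟨54, 5, [1, 1, -1, 0, 0, 1, 0, 0]⟩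

/-- second chunk (without its left end) -/
def L2 : List St := [⟨12, 1, [1, 1, -5, 0, 0, -2, 0, 0, -1, 0, 0, 1, 0, 0]⟩,
  ⟨38, 3, [1, 1, -5, 0, 0, -2, 0, 0, -1, 0, 0, 1, 0, 0]⟩,
  ⟨14, 1, [0, 0, -4, 0, 0, -1, 0, 0, 1, 0, 0, 2, 0, 0]⟩,
  ⟨44, 3, [0, 0, -4, 0, 0, -1, 0, 0, 1, 0, 0, 2, 0, 0]⟩,
  ⟨15, 1, [0, 0, -4, 0, 0, -1, 0, 0, 1, 0, 0, 2, 0, 0]⟩,
  ⟨31, 2, [0, 0, -4, 0, 0, -1, 0, 0, 1, 0, 0]⟩,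
  ⟨16, 1, [0, 0, -4, 0, 0, -1, 0, 0, 1, 0, 0]⟩,
  ⟨18, 1, [0, 0, -4, 0, 0, -1, 0, 0, 1, 0, 0]⟩,
  ⟨20, 1, [0, 0, -4, 0, 0, 1, 0, 0]⟩,
  ⟨21, 1, [0, 0, -4, 0, 0, 1, 0, 0]⟩,
  ⟨24, 1, [0, 0, -4, 0, 0, 1, 0, 0]⟩,
  ⟨28, 1, [0, 0, -4, 0, 0, 1, 0, 0]⟩,
  ⟨30, 1, [0, 0, -4, 0, 0, 1, 0, 0]⟩,
  ⟨31, 1, [0, 0, -4, 0, 0, 1, 0, 0]⟩,
  ⟨38, 1, [0, 0, -4, 0, 0, 1, 0, 0]⟩,
  ⟨42, 1, [0, 0, -4, 0, 0, 1, 0, 0]⟩,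
  ⟨44, 1, [0, 0, -4, 0, 0, 1, 0, 0]⟩,
  ⟨48, 1, [0, 0, -4, 0, 0]⟩,
  ⟨54, 1, [0, 0, -4, 0, 0]⟩,
  ⟨60, 1, [0, 0]⟩]

theorem tot1 : fastTotal 1000000000 bd kapS ext (L1 ++ [s]) = some (48482380947) := by decide +kernel

theorem tot2 : fastTotal 1000000000 bd kapS ext (s :: L2) = some (334836666664) := by decide +kernel

theorem tot : fastTotal 1000000000 bd kapS ext (L1 ++ s :: L2) = some (48482380947 + 334836666664) :=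
  fastTotal_append tot2 tot1

end Crest.Agent.R006.P8.Toyx965
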