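import Crest.Agent.R006.Wedge2_516

/-!
Row 6 (Catalan), block P3 (helper516).  The wedge lemma of `Wedge2_516` with an arbitrary margin `δ`
of the strips (so that poles of neighbouring cells are outside).
-/

set_option autoImplicit false

open Complex MeasureTheory Set Filter Topology intervalIntegral Metric Function
open scoped Real Interval

noncomputable section

namespace Crest.Agent.R006.Wedge516

/-- hypotheses on the offsets: in `(0,1)`, `r`-separated; `δ` is the margin of the strips -/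
structure OffM (Off : Finset ℝ) (r δ : ℝ) : Prop where
  pos : ∀ φ ∈ Off, 0 < φ
  lt_one : ∀ φ ∈ Off, φ < 1
  r_pos : 0 < r
  δ_pos : 0 < δ
  lo : ∀ φ ∈ Off, r < φ + δ
  hi : ∀ φ ∈ Off, φ + r < 1 + δ
  sep : ∀ φ ∈ Off, ∀ φ' ∈ Off, φ ≠ φ' → r < |φ - φ'|

section W3

variable {κ c r δ : ℝ} {Off : Finset ℝ} {m : ℕ} {Φ : ℂ → ℂ}

lemma cell2_m (hc : 0 < c) (hO : OffM Off r δ) {l : ℕ}
    (h : PolesAt Φ (-(κ + l + 1) - δ) (-(κ + l) + δ) (cellF Off κ l) m) :
    trap κ c (l / c) ((l + 1 : ℕ) / c) Φ =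
      ∑ φ ∈ Off, (∮ z in C((-(κ + l + φ) : ℝ), r), Φ z) := by
  have e1 : c * ((l : ℝ) / c) = l := mul_div_cancel₀ _ hc.ne'
  have e2 : c * (((l + 1 : ℕ) : ℝ) / c) = (l + 1 : ℕ) := mul_div_cancel₀ _ hc.ne'
  have ha : (0 : ℝ) ≤ l / c := by positivity
  have hab : (l : ℝ) / c < ((l + 1 : ℕ) : ℝ) / c := by
    gcongr
    simp
  have hδ := hO.δ_pos
  have key := trap_poles (κ := κ) hc ha hab (x0 := -(κ + l + 1) - δ) (x1 := -(κ + l) + δ)
    (r := r) (by rw [e2]; push_cast; linarith) (by rw [e1]; linarith) h hO.r_pos ?_ ?_ ?_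
  · rw [key, cellF, Finset.sum_image]
    intro x _ y _ hxy
    simpa using hxy
  · intro s hs
    obtain ⟨φ, hφ, rfl⟩ := mem_cellF.1 hs
    have := hO.pos φ hφ
    have := hO.lt_one φ hφ
    rw [e1, e2]
    push_cast
    constructor <;> linarith
  · intro s hs
    obtain ⟨φ, hφ, rfl⟩ := mem_cellF.1 hs
    have := hO.lo φ hφ
    have := hO.hi φ hφ
    constructor <;> linarith
  · intro s hs t ht hst
    obtain ⟨φ, hφ, rfl⟩ := mem_cellF.1 hs
    obtain ⟨φ', hφ', rfl⟩ := mem_cellF.1 ht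
    have := hO.sep φ' hφ' φ hφ (fun h => hst (by rw [h]))
    rwa [show -(κ + l + φ) - -(κ + l + φ') = φ' - φ by ring]

lemma cellF_notMem_m (hc : 0 < c) (hO : OffM Off r δ) {l : ℕ} :
    ∀ s ∈ cellF Off κ l, (s : ℂ) ∉ trapP κ c ((l : ℝ) / c) (((l + 1 : ℕ) : ℝ) / c) := by
  have e1 : c * ((l : ℝ) / c) = l := mul_div_cancel₀ _ hc.ne'
  have e2 : c * (((l + 1 : ℕ) : ℝ) / c) = (l + 1 : ℕ) := mul_div_cancel₀ _ hc.ne'
  have ha : (0 : ℝ) ≤ l / c := by positivity
  have hab : (l : ℝ) / c < ((l + 1 : ℕ) : ℝ) / c := by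
    gcongr
    simp
  intro s hs
  obtain ⟨φ, hφ, rfl⟩ := mem_cellF.1 hs
  have := hO.pos φ hφ
  have := hO.lt_one φ hφ
  refine notMem_trapP ha hab ?_ ?_
  · rw [e2]; push_cast; linarith
  · rw [e1]; linarith

lemma cell_continuousOn_m (hc : 0 < c) (hO : OffM Off r δ) {l : ℕ}
    (h : PolesAt Φ (-(κ + l + 1) - δ) (-(κ + l) + δ) (cellF Off κ l) m) :
    ContinuousOn Φ (trapP κ c ((l : ℝ) / c) (((l + 1 : ℕ) : ℝ) / c)) := by
  have e1 : c * ((l : ℝ) / c) = l := mul_div_cancel₀ _ hc.ne'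
  have e2 : c * (((l + 1 : ℕ) : ℝ) / c) = (l + 1 : ℕ) := mul_div_cancel₀ _ hc.ne'
  have hab : (l : ℝ) / c < ((l + 1 : ℕ) : ℝ) / c := by
    gcongr
    simp
  have hδ := hO.δ_pos
  refine h.continuousOn (trapP_subset hc hab ?_ ?_) (cellF_notMem_m hc hO)
  · rw [e2]; push_cast; linarith
  · rw [e1]; linarith

/-- finite wedge, several poles per cell -/
theorem wedge_finite_m (hc : 0 < c) (hO : OffM Off r δ) (n : ℕ)
    (h : ∀ l < n, PolesAt Φ (-(κ + l + 1) - δ) (-(κ + l) + δ) (cellF Off κ l) m) :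
    ∑ l ∈ Finset.range n, ∑ φ ∈ Off, (∮ z in C((-(κ + l + φ) : ℝ), r), Φ z) =
      sg (-κ) (-c + I) 0 (n / c) Φ - sg (-κ) (-c - I) 0 (n / c) Φ
        - sg ((-(κ + n) : ℝ) : ℂ) I (-(n / c)) (n / c) Φ := by
  induction n with
  | zero => simp [sg]
  | succ n ih =>
    rw [Finset.sum_range_succ, ih fun l hl => h l (hl.trans (Nat.lt_succ_self n)),
      ← cell2_m hc hO (h n (Nat.lt_succ_self n))]
    have e1 : c * ((n : ℝ) / c) = n := mul_div_cancel₀ _ hc.ne'
    have e2 : c * (((n + 1 : ℕ) : ℝ) / c) = (n + 1 : ℕ) := mul_div_cancel₀ _ hc.ne'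
    unfold trap
    rw [e1, e2]
    -- the ray integrals are additive
    have hint : ∀ v : ℂ, (v = -c + I ∨ v = -c - I) → ∀ l ≤ n,
        IntervalIntegrable (fun t : ℝ => Φ (-κ + t * v)) volume (l / c) ((l + 1 : ℕ) / c) := by
      intro v hv l hl
      have hcont := cell_continuousOn_m hc hO (h l (Nat.lt_succ_of_le hl))
      rcases hv with rfl | rfl
      · exact (continuousOn_line hcont fun t ht => line2_mem ht).intervalIntegrable
      · exact (continuousOn_line hcont fun t ht => line4_mem ht).intervalIntegrable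
    have hint' : ∀ v : ℂ, (v = -c + I ∨ v = -c - I) → ∀ l ≤ n,
        IntervalIntegrable (fun t : ℝ => Φ (-κ + t * v)) volume 0 ((l : ℕ) / c) := by
      intro v hv l
      induction l with
      | zero => intro _; simp
      | succ l ihl =>
        intro hl
        exact (ihl (by omega)).trans (hint v hv l (by omega))
    have hadd : ∀ v : ℂ, (v = -c + I ∨ v = -c - I) →
        sg (-κ) v 0 ((n : ℝ) / c) Φ + sg (-κ) v ((n : ℝ) / c) (((n + 1 : ℕ) : ℝ) / c) Φ =
          sg (-κ) v 0 (((n + 1 : ℕ) : ℝ) / c) Φ := by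
      intro v hv
      unfold sg
      rw [← mul_add, intervalIntegral.integral_add_adjacent_intervals (hint' v hv n le_rfl)
        (hint v hv n le_rfl)]
    rw [← hadd _ (Or.inl rfl), ← hadd _ (Or.inr rfl)]
    ring

/-- infinite wedge, several poles per cell -/
theorem wedge_tendsto_m (hc : 0 < c) (hO : OffM Off r δ)
    (h : ∀ l : ℕ, PolesAt Φ (-(κ + l + 1) - δ) (-(κ + l) + δ) (cellF Off κ l) m)
    (h1 : IntegrableOn (fun t : ℝ => Φ (-κ + t * (-c + I))) (Ioi 0))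
    (h2 : IntegrableOn (fun t : ℝ => Φ (-κ + t * (-c - I))) (Ioi 0))
    (h3 : Tendsto (fun n : ℕ => sg ((-(κ + n) : ℝ) : ℂ) I (-(n / c)) (n / c) Φ) atTop (𝓝 0)) :
    Tendsto (fun n : ℕ => ∑ l ∈ Finset.range n, ∑ φ ∈ Off,
        (∮ z in C((-(κ + l + φ) : ℝ), r), Φ z))
      atTop (𝓝 ((-c + I) * (∫ t in Ioi (0 : ℝ), Φ (-κ + t * (-c + I))) -
        (-c - I) * (∫ t in Ioi (0 : ℝ), Φ (-κ + t * (-c - I))))) := by
  have hn : Tendsto (fun n : ℕ => (n : ℝ) / c) atTop atTop :=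
    tendsto_natCast_atTop_atTop.atTop_div_const hc
  have t1 := (intervalIntegral_tendsto_integral_Ioi 0 h1 hn).const_mul (-c + I)
  have t2 := (intervalIntegral_tendsto_integral_Ioi 0 h2 hn).const_mul (-c - I)
  have t3 := (t1.sub t2).sub h3
  rw [sub_zero] at t3
  refine t3.congr fun n => ?_
  rw [wedge_finite_m hc hO n fun l _ => h l]
  rfl

lemma ray_continuousOn_m (hc : 0 < c) (hO : OffM Off r δ)
    (h : ∀ l : ℕ, PolesAt Φ (-(κ + l + 1) - δ) (-(κ + l) + δ) (cellF Off κ l) m)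
    {v : ℂ} (hv : v = -c + I ∨ v = -c - I) :
    ContinuousOn (fun t : ℝ => Φ (-κ + t * v)) (Ici 0) := by
  intro t ht
  have ht0 : (0 : ℝ) ≤ t := ht
  have hre : ((-κ : ℂ) + t * v).re = -κ - c * t := by
    rcases hv with rfl | rfl <;> simp <;> ring
  set l := ⌊c * t⌋₊ with hl
  have hl1 : (l : ℝ) ≤ c * t := Nat.floor_le (by positivity)
  have hl2 : c * t < l + 1 := Nat.lt_floor_add_one _
  set S : Set ℂ := strip (-(κ + l + 1) - δ) (-(κ + l) + δ) \
    ((cellF Off κ l).image (fun s : ℝ => (s : ℂ)) : Set ℂ) with hS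
  have hδ := hO.δ_pos
  have hmem : (-κ : ℂ) + t * v ∈ strip (-(κ + l + 1) - δ) (-(κ + l) + δ) := by
    constructor <;> rw [hre] <;> linarith
  have hne : (-κ : ℂ) + t * v ∉ ((cellF Off κ l).image (fun s : ℝ => (s : ℂ)) : Set ℂ) := by
    intro he
    rw [Finset.coe_image, mem_image] at he
    obtain ⟨s, hs, he⟩ := he
    obtain ⟨φ, hφ, rfl⟩ := mem_cellF.1 (Finset.mem_coe.1 hs)
    have hp := hO.pos φ hφ
    have h2 := congrArg Complex.im he
    have h3 : t = 0 := by rcases hv with rfl | rfl <;> simpa using h2.symm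
    have h4 := congrArg Complex.re he
    rw [hre, h3] at h4
    simp only [mul_zero, sub_zero, ofReal_re] at h4
    have : (0 : ℝ) ≤ l := Nat.cast_nonneg l
    linarith
  have hSo : S ∈ 𝓝 ((-κ : ℂ) + t * v) :=
    ((isOpen_strip _ _).sdiff (Finset.finite_toSet _).isClosed).mem_nhds ⟨hmem, hne⟩
  have h5 : ContinuousOn Φ S := (h l).continuousOn sdiff_subset (fun s hs h' => h'.2 (by
    rw [Finset.coe_image]; exact mem_image_of_mem _ hs))
  have hca : ContinuousAt Φ ((-κ : ℂ) + t * v) := h5.continuousAt hSo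
  exact (ContinuousAt.comp (f := fun t : ℝ => (-κ : ℂ) + t * v) hca
    (continuous_line _ _).continuousAt).continuousWithinAt

/-- wedge with exponential decay -/
theorem wedge_hasSum_m {M lam : ℝ} (hc : 0 < c) (hlam : 0 < lam) (hO : OffM Off r δ)
    (h : ∀ l : ℕ, PolesAt Φ (-(κ + l + 1) - δ) (-(κ + l) + δ) (cellF Off κ l) m)
    (hb1 : ∀ t : ℝ, 0 ≤ t → ‖Φ (-κ + t * (-c + I))‖ ≤ M * Real.exp (-lam * t))
    (hb2 : ∀ t : ℝ, 0 ≤ t → ‖Φ (-κ + t * (-c - I))‖ ≤ M * Real.exp (-lam * t))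
    (hb3 : ∀ (n : ℕ) (y : ℝ), |y| ≤ n / c → ‖Φ (((-(κ + n) : ℝ) : ℂ) + y * I)‖ ≤
      M * Real.exp (-lam * n))
    (hb4 : ∀ (l : ℕ), ∀ φ ∈ Off, ∀ (z : ℂ), ‖z - ((-(κ + l + φ) : ℝ) : ℂ)‖ = r →
      ‖Φ z‖ ≤ M * Real.exp (-lam * l)) :
    HasSum (fun l : ℕ => ∑ φ ∈ Off, ∮ z in C((-(κ + l + φ) : ℝ), r), Φ z)
      ((-c + I) * (∫ t in Ioi (0 : ℝ), Φ (-κ + t * (-c + I))) -
        (-c - I) * (∫ t in Ioi (0 : ℝ), Φ (-κ + t * (-c - I)))) := by
  have hM : 0 ≤ M := by
    have := (norm_nonneg _).trans (hb1 0 le_rfl)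
    simpa using this
  have hintv : ∀ v : ℂ, (v = -c + I ∨ v = -c - I) →
      (∀ t : ℝ, 0 ≤ t → ‖Φ (-κ + t * v)‖ ≤ M * Real.exp (-lam * t)) →
      IntegrableOn (fun t : ℝ => Φ (-κ + t * v)) (Ioi 0) := by
    intro v hv hb
    have hg : IntegrableOn (fun t : ℝ => M * Real.exp (-lam * t)) (Ioi 0) :=
      (exp_neg_integrableOn_Ioi 0 hlam).const_mul M
    refine Integrable.mono' hg (((ray_continuousOn_m hc hO h hv).mono
      Ioi_subset_Ici_self).aestronglyMeasurable measurableSet_Ioi) ?_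
    filter_upwards [ae_restrict_mem measurableSet_Ioi] with t ht
    exact hb t (le_of_lt ht)
  have htend := wedge_tendsto_m hc hO h (hintv _ (Or.inl rfl) hb1) (hintv _ (Or.inr rfl) hb2) ?_
  · have hsum : Summable (fun l : ℕ => ∑ φ ∈ Off, ∮ z in C((-(κ + l + φ) : ℝ), r), Φ z) := by
      refine Summable.of_norm_bounded
        (g := fun l : ℕ => ∑ φ ∈ Off, 2 * π * r * (M * Real.exp (-lam * l))) ?_ fun l => ?_
      · refine summable_sum fun φ _ => ?_
        refine ((?_ : Summable fun l : ℕ => Real.exp (-lam * l)).mul_left M).mul_left _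
        have := Real.summable_exp_nat_mul_iff.2 (show -lam < 0 by linarith)
        refine this.congr fun l => ?_
        rw [mul_comm]
      · refine (norm_sum_le _ _).trans (Finset.sum_le_sum fun φ hφ => ?_)
        refine circleIntegral.norm_integral_le_of_norm_le_const hO.r_pos.le fun z hz => ?_
        rw [mem_sphere, dist_eq_norm] at hz
        exact hb4 l φ hφ z hz
    exact (hsum.hasSum_iff_tendsto_nat).2 htend
  · rw [tendsto_zero_iff_norm_tendsto_zero]
    have hlim : Tendsto (fun n : ℕ => 2 / c * M * ((n : ℝ) * Real.exp (-lam * n))) atTop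
        (𝓝 0) := by
      have h5 : Tendsto (fun x : ℝ => x * Real.exp (-lam * x)) atTop (𝓝 0) := by
        have := Real.tendsto_pow_mul_exp_neg_atTop_nhds_zero 1
        have h6 := (this.comp (tendsto_id.const_mul_atTop hlam)).const_mul (1 / lam)
        rw [mul_zero] at h6
        refine h6.congr fun x => ?_
        simp only [Function.comp, pow_one, id]
        rw [show -(lam * x) = -lam * x by ring]
        field_simp
      have := (h5.comp tendsto_natCast_atTop_atTop).const_mul (2 / c * M)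
      rw [mul_zero] at this
      exact this
    refine squeeze_zero (fun _ => norm_nonneg _) (fun n => ?_) hlim
    have hn0 : (0 : ℝ) ≤ (n : ℝ) / c := by positivity
    unfold sg
    rw [norm_mul, Complex.norm_I, one_mul]
    have h7 := intervalIntegral.norm_integral_le_of_norm_le_const
      (a := -((n : ℝ) / c)) (b := (n : ℝ) / c)
      (f := fun y : ℝ => Φ (((-(κ + n) : ℝ) : ℂ) + y * I)) (C := M * Real.exp (-lam * n))
      (fun y hy => hb3 n y ?_)
    · refine h7.trans (le_of_eq ?_)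
      rw [sub_neg_eq_add, abs_of_nonneg (by linarith)]
      ring
    · rw [uIoc_of_le (by linarith)] at hy
      exact abs_le.2 ⟨hy.1.le, hy.2⟩

end W3

end Crest.Agent.R006.Wedge516
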